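import Vale.Agent.P359.Data

namespace Vale.Agent.P359

theorem c_0_0 : (chk grps 0 0 && chk grps 0 1) = true := by decide +kernel

theorem c_0_1 : (chk grps 0 2 && chk grps 0 3) = true := by decide +kernel

theorem c_0_2 : (chk grps 0 4 && chk grps 0 5) = true := by decide +kernel

theorem c_0_3 : (chk grps 0 6 && chk grps 0 7) = true := by decide +kernel

theorem c_0_4 : (chk grps 0 8 && chk grps 0 9) = true := by decide +kernel

theorem c_0_5 : (chk grps 0 10 && chk grps 0 11) = true := by decide +kernel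

theorem c_0_6 : (chk grps 0 12 && chk grps 0 13) = true := by decide +kernel

theorem c_0_7 : (chk grps 0 14 && chk grps 0 15) = true := by decide +kernel

theorem c_0_8 : (chk grps 0 16 && chk grps 0 17) = true := by decide +kernel

theorem c_0_9 : (chk grps 0 18 && chk grps 0 19) = true := by decide +kernel

theorem c_0_10 : (chk grps 0 20 && chk grps 0 21) = true := by decide +kernel

theorem c_0_11 : (chk grps 0 22 && chk grps 0 23) = true := by decide +kernel

theorem c_0_12 : (chk grps 0 24 && chk grps 0 25) = true := by decide +kernel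

theorem c_0_13 : (chk grps 0 26 && chk grps 0 27) = true := by decide +kernel

theorem c_0_14 : (chk grps 0 28 && chk grps 0 29) = true := by decide +kernel

theorem c_0_15 : (chk grps 0 30 && chk grps 0 31) = true := by decide +kernel

theorem c_0_16 : (chk grps 0 32 && chk grps 0 33) = true := by decide +kernel

theorem c_0_17 : (chk grps 0 34 && chk grps 0 35) = true := by decide +kernel

theorem c_0_18 : (chk grps 0 36 && chk grps 0 37) = true := by decide +kernel

theorem c_0_19 : (chk grps 0 38 && chk grps 0 39) = true := by decide +kernel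

theorem c_0_20 : (chk grps 0 40 && chk grps 0 41) = true := by decide +kernel

theorem c_0_21 : (chk grps 0 42 && chk grps 0 43) = true := by decide +kernel

theorem c_0_22 : (chk grps 0 44 && chk grps 0 45) = true := by decide +kernel

theorem c_0_23 : (chk grps 0 46 && chk grps 0 47) = true := by decide +kernel

theorem c_0_24 : (chk grps 0 48 && chk grps 0 49) = true := by decide +kernel

theorem c_0_25 : (chk grps 0 50 && chk grps 0 51) = true := by decide +kernel

theorem c_0_26 : (chk grps 0 52 && chk grps 0 53) = true := by decide +kernel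

theorem c_0_27 : (chk grps 0 54 && chk grps 0 55) = true := by decide +kernel

theorem c_0_28 : (chk grps 0 56 && chk grps 0 57) = true := by decide +kernel

theorem c_0_29 : (chk grps 0 58 && chk grps 0 59) = true := by decide +kernel

theorem c_0_30 : (chk grps 0 60 && chk grps 0 61) = true := by decide +kernel

theorem c_0_31 : (chk grps 0 62 && chk grps 0 63) = true := by decide +kernel

theorem chkN_0 : ∀ D < 64, chk grps 0 D = true := by
  intro D hD
  interval_cases D
  exacts [(Bool.and_eq_true_iff.1 c_0_0).1, (Bool.and_eq_true_iff.1 c_0_0).2,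
    (Bool.and_eq_true_iff.1 c_0_1).1, (Bool.and_eq_true_iff.1 c_0_1).2,
    (Bool.and_eq_true_iff.1 c_0_2).1, (Bool.and_eq_true_iff.1 c_0_2).2,
    (Bool.and_eq_true_iff.1 c_0_3).1, (Bool.and_eq_true_iff.1 c_0_3).2,
    (Bool.and_eq_true_iff.1 c_0_4).1, (Bool.and_eq_true_iff.1 c_0_4).2,
    (Bool.and_eq_true_iff.1 c_0_5).1, (Bool.and_eq_true_iff.1 c_0_5).2,
    (Bool.and_eq_true_iff.1 c_0_6).1, (Bool.and_eq_true_iff.1 c_0_6).2,
    (Bool.and_eq_true_iff.1 c_0_7).1, (Bool.and_eq_true_iff.1 c_0_7).2,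
    (Bool.and_eq_true_iff.1 c_0_8).1, (Bool.and_eq_true_iff.1 c_0_8).2,
    (Bool.and_eq_true_iff.1 c_0_9).1, (Bool.and_eq_true_iff.1 c_0_9).2,
    (Bool.and_eq_true_iff.1 c_0_10).1, (Bool.and_eq_true_iff.1 c_0_10).2,
    (Bool.and_eq_true_iff.1 c_0_11).1, (Bool.and_eq_true_iff.1 c_0_11).2,
    (Bool.and_eq_true_iff.1 c_0_12).1, (Bool.and_eq_true_iff.1 c_0_12).2,
    (Bool.and_eq_true_iff.1 c_0_13).1, (Bool.and_eq_true_iff.1 c_0_13).2,
    (Bool.and_eq_true_iff.1 c_0_14).1, (Bool.and_eq_true_iff.1 c_0_14).2,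
    (Bool.and_eq_true_iff.1 c_0_15).1, (Bool.and_eq_true_iff.1 c_0_15).2,
    (Bool.and_eq_true_iff.1 c_0_16).1, (Bool.and_eq_true_iff.1 c_0_16).2,
    (Bool.and_eq_true_iff.1 c_0_17).1, (Bool.and_eq_true_iff.1 c_0_17).2,
    (Bool.and_eq_true_iff.1 c_0_18).1, (Bool.and_eq_true_iff.1 c_0_18).2,
    (Bool.and_eq_true_iff.1 c_0_19).1, (Bool.and_eq_true_iff.1 c_0_19).2,
    (Bool.and_eq_true_iff.1 c_0_20).1, (Bool.and_eq_true_iff.1 c_0_20).2,
    (Bool.and_eq_true_iff.1 c_0_21).1, (Bool.and_eq_true_iff.1 c_0_21).2,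
    (Bool.and_eq_true_iff.1 c_0_22).1, (Bool.and_eq_true_iff.1 c_0_22).2,
    (Bool.and_eq_true_iff.1 c_0_23).1, (Bool.and_eq_true_iff.1 c_0_23).2,
    (Bool.and_eq_true_iff.1 c_0_24).1, (Bool.and_eq_true_iff.1 c_0_24).2,
    (Bool.and_eq_true_iff.1 c_0_25).1, (Bool.and_eq_true_iff.1 c_0_25).2,
    (Bool.and_eq_true_iff.1 c_0_26).1, (Bool.and_eq_true_iff.1 c_0_26).2,
    (Bool.and_eq_true_iff.1 c_0_27).1, (Bool.and_eq_true_iff.1 c_0_27).2,
    (Bool.and_eq_true_iff.1 c_0_28).1, (Bool.and_eq_true_iff.1 c_0_28).2,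
    (Bool.and_eq_true_iff.1 c_0_29).1, (Bool.and_eq_true_iff.1 c_0_29).2,
    (Bool.and_eq_true_iff.1 c_0_30).1, (Bool.and_eq_true_iff.1 c_0_30).2,
    (Bool.and_eq_true_iff.1 c_0_31).1, (Bool.and_eq_true_iff.1 c_0_31).2]

theorem c_1_0 : (chk grps 1 0 && chk grps 1 1) = true := by decide +kernel

theorem c_1_1 : (chk grps 1 2 && chk grps 1 3) = true := by decide +kernel

theorem c_1_2 : (chk grps 1 4 && chk grps 1 5) = true := by decide +kernel

theorem c_1_3 : (chk grps 1 6 && chk grps 1 7) = true := by decide +kernel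

theorem c_1_4 : (chk grps 1 8 && chk grps 1 9) = true := by decide +kernel

theorem c_1_5 : (chk grps 1 10 && chk grps 1 11) = true := by decide +kernel

theorem c_1_6 : (chk grps 1 12 && chk grps 1 13) = true := by decide +kernel

theorem c_1_7 : (chk grps 1 14 && chk grps 1 15) = true := by decide +kernel

theorem c_1_8 : (chk grps 1 16 && chk grps 1 17) = true := by decide +kernel

theorem c_1_9 : (chk grps 1 18 && chk grps 1 19) = true := by decide +kernel

theorem c_1_10 : (chk grps 1 20 && chk grps 1 21) = true := by decide +kernel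

theorem c_1_11 : (chk grps 1 22 && chk grps 1 23) = true := by decide +kernel

theorem c_1_12 : (chk grps 1 24 && chk grps 1 25) = true := by decide +kernel

theorem c_1_13 : (chk grps 1 26 && chk grps 1 27) = true := by decide +kernel

theorem c_1_14 : (chk grps 1 28 && chk grps 1 29) = true := by decide +kernel

theorem c_1_15 : (chk grps 1 30 && chk grps 1 31) = true := by decide +kernel

theorem c_1_16 : (chk grps 1 32 && chk grps 1 33) = true := by decide +kernel

theorem c_1_17 : (chk grps 1 34 && chk grps 1 35) = true := by decide +kernel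

theorem c_1_18 : (chk grps 1 36 && chk grps 1 37) = true := by decide +kernel

theorem c_1_19 : (chk grps 1 38 && chk grps 1 39) = true := by decide +kernel

theorem c_1_20 : (chk grps 1 40 && chk grps 1 41) = true := by decide +kernel

theorem c_1_21 : (chk grps 1 42 && chk grps 1 43) = true := by decide +kernel

theorem c_1_22 : (chk grps 1 44 && chk grps 1 45) = true := by decide +kernel

theorem c_1_23 : (chk grps 1 46 && chk grps 1 47) = true := by decide +kernel

theorem c_1_24 : (chk grps 1 48 && chk grps 1 49) = true := by decide +kernel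

theorem c_1_25 : (chk grps 1 50 && chk grps 1 51) = true := by decide +kernel

theorem c_1_26 : (chk grps 1 52 && chk grps 1 53) = true := by decide +kernel

theorem c_1_27 : (chk grps 1 54 && chk grps 1 55) = true := by decide +kernel

theorem c_1_28 : (chk grps 1 56 && chk grps 1 57) = true := by decide +kernel

theorem c_1_29 : (chk grps 1 58 && chk grps 1 59) = true := by decide +kernel

theorem c_1_30 : (chk grps 1 60 && chk grps 1 61) = true := by decide +kernel

theorem c_1_31 : (chk grps 1 62 && chk grps 1 63) = true := by decide +kernel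

theorem chkN_1 : ∀ D < 64, chk grps 1 D = true := by
  intro D hD
  interval_cases D
  exacts [(Bool.and_eq_true_iff.1 c_1_0).1, (Bool.and_eq_true_iff.1 c_1_0).2,
    (Bool.and_eq_true_iff.1 c_1_1).1, (Bool.and_eq_true_iff.1 c_1_1).2,
    (Bool.and_eq_true_iff.1 c_1_2).1, (Bool.and_eq_true_iff.1 c_1_2).2,
    (Bool.and_eq_true_iff.1 c_1_3).1, (Bool.and_eq_true_iff.1 c_1_3).2,
    (Bool.and_eq_true_iff.1 c_1_4).1, (Bool.and_eq_true_iff.1 c_1_4).2,
    (Bool.and_eq_true_iff.1 c_1_5).1, (Bool.and_eq_true_iff.1 c_1_5).2,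
    (Bool.and_eq_true_iff.1 c_1_6).1, (Bool.and_eq_true_iff.1 c_1_6).2,
    (Bool.and_eq_true_iff.1 c_1_7).1, (Bool.and_eq_true_iff.1 c_1_7).2,
    (Bool.and_eq_true_iff.1 c_1_8).1, (Bool.and_eq_true_iff.1 c_1_8).2,
    (Bool.and_eq_true_iff.1 c_1_9).1, (Bool.and_eq_true_iff.1 c_1_9).2,
    (Bool.and_eq_true_iff.1 c_1_10).1, (Bool.and_eq_true_iff.1 c_1_10).2,
    (Bool.and_eq_true_iff.1 c_1_11).1, (Bool.and_eq_true_iff.1 c_1_11).2,
    (Bool.and_eq_true_iff.1 c_1_12).1, (Bool.and_eq_true_iff.1 c_1_12).2,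
    (Bool.and_eq_true_iff.1 c_1_13).1, (Bool.and_eq_true_iff.1 c_1_13).2,
    (Bool.and_eq_true_iff.1 c_1_14).1, (Bool.and_eq_true_iff.1 c_1_14).2,
    (Bool.and_eq_true_iff.1 c_1_15).1, (Bool.and_eq_true_iff.1 c_1_15).2,
    (Bool.and_eq_true_iff.1 c_1_16).1, (Bool.and_eq_true_iff.1 c_1_16).2,
    (Bool.and_eq_true_iff.1 c_1_17).1, (Bool.and_eq_true_iff.1 c_1_17).2,
    (Bool.and_eq_true_iff.1 c_1_18).1, (Bool.and_eq_true_iff.1 c_1_18).2,
    (Bool.and_eq_true_iff.1 c_1_19).1, (Bool.and_eq_true_iff.1 c_1_19).2,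
    (Bool.and_eq_true_iff.1 c_1_20).1, (Bool.and_eq_true_iff.1 c_1_20).2,
    (Bool.and_eq_true_iff.1 c_1_21).1, (Bool.and_eq_true_iff.1 c_1_21).2,
    (Bool.and_eq_true_iff.1 c_1_22).1, (Bool.and_eq_true_iff.1 c_1_22).2,
    (Bool.and_eq_true_iff.1 c_1_23).1, (Bool.and_eq_true_iff.1 c_1_23).2,
    (Bool.and_eq_true_iff.1 c_1_24).1, (Bool.and_eq_true_iff.1 c_1_24).2,
    (Bool.and_eq_true_iff.1 c_1_25).1, (Bool.and_eq_true_iff.1 c_1_25).2,
    (Bool.and_eq_true_iff.1 c_1_26).1, (Bool.and_eq_true_iff.1 c_1_26).2,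
    (Bool.and_eq_true_iff.1 c_1_27).1, (Bool.and_eq_true_iff.1 c_1_27).2,
    (Bool.and_eq_true_iff.1 c_1_28).1, (Bool.and_eq_true_iff.1 c_1_28).2,
    (Bool.and_eq_true_iff.1 c_1_29).1, (Bool.and_eq_true_iff.1 c_1_29).2,
    (Bool.and_eq_true_iff.1 c_1_30).1, (Bool.and_eq_true_iff.1 c_1_30).2,
    (Bool.and_eq_true_iff.1 c_1_31).1, (Bool.and_eq_true_iff.1 c_1_31).2]

theorem c_2_0 : (chk grps 2 0 && chk grps 2 1) = true := by decide +kernel

theorem c_2_1 : (chk grps 2 2 && chk grps 2 3) = true := by decide +kernel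

theorem c_2_2 : (chk grps 2 4 && chk grps 2 5) = true := by decide +kernel

theorem c_2_3 : (chk grps 2 6 && chk grps 2 7) = true := by decide +kernel

theorem c_2_4 : (chk grps 2 8 && chk grps 2 9) = true := by decide +kernel

theorem c_2_5 : (chk grps 2 10 && chk grps 2 11) = true := by decide +kernel

theorem c_2_6 : (chk grps 2 12 && chk grps 2 13) = true := by decide +kernel

theorem c_2_7 : (chk grps 2 14 && chk grps 2 15) = true := by decide +kernel

theorem c_2_8 : (chk grps 2 16 && chk grps 2 17) = true := by decide +kernel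

theorem c_2_9 : (chk grps 2 18 && chk grps 2 19) = true := by decide +kernel

theorem c_2_10 : (chk grps 2 20 && chk grps 2 21) = true := by decide +kernel

theorem c_2_11 : (chk grps 2 22 && chk grps 2 23) = true := by decide +kernel

theorem c_2_12 : (chk grps 2 24 && chk grps 2 25) = true := by decide +kernel

theorem c_2_13 : (chk grps 2 26 && chk grps 2 27) = true := by decide +kernel

theorem c_2_14 : (chk grps 2 28 && chk grps 2 29) = true := by decide +kernel

theorem c_2_15 : (chk grps 2 30 && chk grps 2 31) = true := by decide +kernel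

theorem c_2_16 : (chk grps 2 32 && chk grps 2 33) = true := by decide +kernel

theorem c_2_17 : (chk grps 2 34 && chk grps 2 35) = true := by decide +kernel

theorem c_2_18 : (chk grps 2 36 && chk grps 2 37) = true := by decide +kernel

theorem c_2_19 : (chk grps 2 38 && chk grps 2 39) = true := by decide +kernel

theorem c_2_20 : (chk grps 2 40 && chk grps 2 41) = true := by decide +kernel

theorem c_2_21 : (chk grps 2 42 && chk grps 2 43) = true := by decide +kernel

theorem c_2_22 : (chk grps 2 44 && chk grps 2 45) = true := by decide +kernel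

theorem c_2_23 : (chk grps 2 46 && chk grps 2 47) = true := by decide +kernel

theorem c_2_24 : (chk grps 2 48 && chk grps 2 49) = true := by decide +kernel

theorem c_2_25 : (chk grps 2 50 && chk grps 2 51) = true := by decide +kernel

theorem c_2_26 : (chk grps 2 52 && chk grps 2 53) = true := by decide +kernel

theorem c_2_27 : (chk grps 2 54 && chk grps 2 55) = true := by decide +kernel

theorem c_2_28 : (chk grps 2 56 && chk grps 2 57) = true := by decide +kernel

theorem c_2_29 : (chk grps 2 58 && chk grps 2 59) = true := by decide +kernel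

theorem c_2_30 : (chk grps 2 60 && chk grps 2 61) = true := by decide +kernel

theorem c_2_31 : (chk grps 2 62 && chk grps 2 63) = true := by decide +kernel

theorem chkN_2 : ∀ D < 64, chk grps 2 D = true := by
  intro D hD
  interval_cases D
  exacts [(Bool.and_eq_true_iff.1 c_2_0).1, (Bool.and_eq_true_iff.1 c_2_0).2,
    (Bool.and_eq_true_iff.1 c_2_1).1, (Bool.and_eq_true_iff.1 c_2_1).2,
    (Bool.and_eq_true_iff.1 c_2_2).1, (Bool.and_eq_true_iff.1 c_2_2).2,
    (Bool.and_eq_true_iff.1 c_2_3).1, (Bool.and_eq_true_iff.1 c_2_3).2,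
    (Bool.and_eq_true_iff.1 c_2_4).1, (Bool.and_eq_true_iff.1 c_2_4).2,
    (Bool.and_eq_true_iff.1 c_2_5).1, (Bool.and_eq_true_iff.1 c_2_5).2,
    (Bool.and_eq_true_iff.1 c_2_6).1, (Bool.and_eq_true_iff.1 c_2_6).2,
    (Bool.and_eq_true_iff.1 c_2_7).1, (Bool.and_eq_true_iff.1 c_2_7).2,
    (Bool.and_eq_true_iff.1 c_2_8).1, (Bool.and_eq_true_iff.1 c_2_8).2,
    (Bool.and_eq_true_iff.1 c_2_9).1, (Bool.and_eq_true_iff.1 c_2_9).2,
    (Bool.and_eq_true_iff.1 c_2_10).1, (Bool.and_eq_true_iff.1 c_2_10).2,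
    (Bool.and_eq_true_iff.1 c_2_11).1, (Bool.and_eq_true_iff.1 c_2_11).2,
    (Bool.and_eq_true_iff.1 c_2_12).1, (Bool.and_eq_true_iff.1 c_2_12).2,
    (Bool.and_eq_true_iff.1 c_2_13).1, (Bool.and_eq_true_iff.1 c_2_13).2,
    (Bool.and_eq_true_iff.1 c_2_14).1, (Bool.and_eq_true_iff.1 c_2_14).2,
    (Bool.and_eq_true_iff.1 c_2_15).1, (Bool.and_eq_true_iff.1 c_2_15).2,
    (Bool.and_eq_true_iff.1 c_2_16).1, (Bool.and_eq_true_iff.1 c_2_16).2,
    (Bool.and_eq_true_iff.1 c_2_17).1, (Bool.and_eq_true_iff.1 c_2_17).2,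
    (Bool.and_eq_true_iff.1 c_2_18).1, (Bool.and_eq_true_iff.1 c_2_18).2,
    (Bool.and_eq_true_iff.1 c_2_19).1, (Bool.and_eq_true_iff.1 c_2_19).2,
    (Bool.and_eq_true_iff.1 c_2_20).1, (Bool.and_eq_true_iff.1 c_2_20).2,
    (Bool.and_eq_true_iff.1 c_2_21).1, (Bool.and_eq_true_iff.1 c_2_21).2,
    (Bool.and_eq_true_iff.1 c_2_22).1, (Bool.and_eq_true_iff.1 c_2_22).2,
    (Bool.and_eq_true_iff.1 c_2_23).1, (Bool.and_eq_true_iff.1 c_2_23).2,
    (Bool.and_eq_true_iff.1 c_2_24).1, (Bool.and_eq_true_iff.1 c_2_24).2,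
    (Bool.and_eq_true_iff.1 c_2_25).1, (Bool.and_eq_true_iff.1 c_2_25).2,
    (Bool.and_eq_true_iff.1 c_2_26).1, (Bool.and_eq_true_iff.1 c_2_26).2,
    (Bool.and_eq_true_iff.1 c_2_27).1, (Bool.and_eq_true_iff.1 c_2_27).2,
    (Bool.and_eq_true_iff.1 c_2_28).1, (Bool.and_eq_true_iff.1 c_2_28).2,
    (Bool.and_eq_true_iff.1 c_2_29).1, (Bool.and_eq_true_iff.1 c_2_29).2,
    (Bool.and_eq_true_iff.1 c_2_30).1, (Bool.and_eq_true_iff.1 c_2_30).2,
    (Bool.and_eq_true_iff.1 c_2_31).1, (Bool.and_eq_true_iff.1 c_2_31).2]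

theorem c_3_0 : (chk grps 3 0 && chk grps 3 1) = true := by decide +kernel

theorem c_3_1 : (chk grps 3 2 && chk grps 3 3) = true := by decide +kernel

theorem c_3_2 : (chk grps 3 4 && chk grps 3 5) = true := by decide +kernel

theorem c_3_3 : (chk grps 3 6 && chk grps 3 7) = true := by decide +kernel

theorem c_3_4 : (chk grps 3 8 && chk grps 3 9) = true := by decide +kernel

theorem c_3_5 : (chk grps 3 10 && chk grps 3 11) = true := by decide +kernel

theorem c_3_6 : (chk grps 3 12 && chk grps 3 13) = true := by decide +kernel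

theorem c_3_7 : (chk grps 3 14 && chk grps 3 15) = true := by decide +kernel

theorem c_3_8 : (chk grps 3 16 && chk grps 3 17) = true := by decide +kernel

theorem c_3_9 : (chk grps 3 18 && chk grps 3 19) = true := by decide +kernel

theorem c_3_10 : (chk grps 3 20 && chk grps 3 21) = true := by decide +kernel

theorem c_3_11 : (chk grps 3 22 && chk grps 3 23) = true := by decide +kernel

theorem c_3_12 : (chk grps 3 24 && chk grps 3 25) = true := by decide +kernel

theorem c_3_13 : (chk grps 3 26 && chk grps 3 27) = true := by decide +kernel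

theorem c_3_14 : (chk grps 3 28 && chk grps 3 29) = true := by decide +kernel

theorem c_3_15 : (chk grps 3 30 && chk grps 3 31) = true := by decide +kernel

theorem c_3_16 : (chk grps 3 32 && chk grps 3 33) = true := by decide +kernel

theorem c_3_17 : (chk grps 3 34 && chk grps 3 35) = true := by decide +kernel

theorem c_3_18 : (chk grps 3 36 && chk grps 3 37) = true := by decide +kernel

theorem c_3_19 : (chk grps 3 38 && chk grps 3 39) = true := by decide +kernel

theorem c_3_20 : (chk grps 3 40 && chk grps 3 41) = true := by decide +kernel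

theorem c_3_21 : (chk grps 3 42 && chk grps 3 43) = true := by decide +kernel

theorem c_3_22 : (chk grps 3 44 && chk grps 3 45) = true := by decide +kernel

theorem c_3_23 : (chk grps 3 46 && chk grps 3 47) = true := by decide +kernel

theorem c_3_24 : (chk grps 3 48 && chk grps 3 49) = true := by decide +kernel

theorem c_3_25 : (chk grps 3 50 && chk grps 3 51) = true := by decide +kernel

theorem c_3_26 : (chk grps 3 52 && chk grps 3 53) = true := by decide +kernel

theorem c_3_27 : (chk grps 3 54 && chk grps 3 55) = true := by decide +kernel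

theorem c_3_28 : (chk grps 3 56 && chk grps 3 57) = true := by decide +kernel

theorem c_3_29 : (chk grps 3 58 && chk grps 3 59) = true := by decide +kernel

theorem c_3_30 : (chk grps 3 60 && chk grps 3 61) = true := by decide +kernel

theorem c_3_31 : (chk grps 3 62 && chk grps 3 63) = true := by decide +kernel

theorem chkN_3 : ∀ D < 64, chk grps 3 D = true := by
  intro D hD
  interval_cases D
  exacts [(Bool.and_eq_true_iff.1 c_3_0).1, (Bool.and_eq_true_iff.1 c_3_0).2,
    (Bool.and_eq_true_iff.1 c_3_1).1, (Bool.and_eq_true_iff.1 c_3_1).2,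
    (Bool.and_eq_true_iff.1 c_3_2).1, (Bool.and_eq_true_iff.1 c_3_2).2,
    (Bool.and_eq_true_iff.1 c_3_3).1, (Bool.and_eq_true_iff.1 c_3_3).2,
    (Bool.and_eq_true_iff.1 c_3_4).1, (Bool.and_eq_true_iff.1 c_3_4).2,
    (Bool.and_eq_true_iff.1 c_3_5).1, (Bool.and_eq_true_iff.1 c_3_5).2,
    (Bool.and_eq_true_iff.1 c_3_6).1, (Bool.and_eq_true_iff.1 c_3_6).2,
    (Bool.and_eq_true_iff.1 c_3_7).1, (Bool.and_eq_true_iff.1 c_3_7).2,
    (Bool.and_eq_true_iff.1 c_3_8).1, (Bool.and_eq_true_iff.1 c_3_8).2,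
    (Bool.and_eq_true_iff.1 c_3_9).1, (Bool.and_eq_true_iff.1 c_3_9).2,
    (Bool.and_eq_true_iff.1 c_3_10).1, (Bool.and_eq_true_iff.1 c_3_10).2,
    (Bool.and_eq_true_iff.1 c_3_11).1, (Bool.and_eq_true_iff.1 c_3_11).2,
    (Bool.and_eq_true_iff.1 c_3_12).1, (Bool.and_eq_true_iff.1 c_3_12).2,
    (Bool.and_eq_true_iff.1 c_3_13).1, (Bool.and_eq_true_iff.1 c_3_13).2,
    (Bool.and_eq_true_iff.1 c_3_14).1, (Bool.and_eq_true_iff.1 c_3_14).2,
    (Bool.and_eq_true_iff.1 c_3_15).1, (Bool.and_eq_true_iff.1 c_3_15).2,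
    (Bool.and_eq_true_iff.1 c_3_16).1, (Bool.and_eq_true_iff.1 c_3_16).2,
    (Bool.and_eq_true_iff.1 c_3_17).1, (Bool.and_eq_true_iff.1 c_3_17).2,
    (Bool.and_eq_true_iff.1 c_3_18).1, (Bool.and_eq_true_iff.1 c_3_18).2,
    (Bool.and_eq_true_iff.1 c_3_19).1, (Bool.and_eq_true_iff.1 c_3_19).2,
    (Bool.and_eq_true_iff.1 c_3_20).1, (Bool.and_eq_true_iff.1 c_3_20).2,
    (Bool.and_eq_true_iff.1 c_3_21).1, (Bool.and_eq_true_iff.1 c_3_21).2,
    (Bool.and_eq_true_iff.1 c_3_22).1, (Bool.and_eq_true_iff.1 c_3_22).2,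
    (Bool.and_eq_true_iff.1 c_3_23).1, (Bool.and_eq_true_iff.1 c_3_23).2,
    (Bool.and_eq_true_iff.1 c_3_24).1, (Bool.and_eq_true_iff.1 c_3_24).2,
    (Bool.and_eq_true_iff.1 c_3_25).1, (Bool.and_eq_true_iff.1 c_3_25).2,
    (Bool.and_eq_true_iff.1 c_3_26).1, (Bool.and_eq_true_iff.1 c_3_26).2,
    (Bool.and_eq_true_iff.1 c_3_27).1, (Bool.and_eq_true_iff.1 c_3_27).2,
    (Bool.and_eq_true_iff.1 c_3_28).1, (Bool.and_eq_true_iff.1 c_3_28).2,
    (Bool.and_eq_true_iff.1 c_3_29).1, (Bool.and_eq_true_iff.1 c_3_29).2,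
    (Bool.and_eq_true_iff.1 c_3_30).1, (Bool.and_eq_true_iff.1 c_3_30).2,
    (Bool.and_eq_true_iff.1 c_3_31).1, (Bool.and_eq_true_iff.1 c_3_31).2]

theorem c_4_0 : (chk grps 4 0 && chk grps 4 1) = true := by decide +kernel

theorem c_4_1 : (chk grps 4 2 && chk grps 4 3) = true := by decide +kernel

theorem c_4_2 : (chk grps 4 4 && chk grps 4 5) = true := by decide +kernel

theorem c_4_3 : (chk grps 4 6 && chk grps 4 7) = true := by decide +kernel

theorem c_4_4 : (chk grps 4 8 && chk grps 4 9) = true := by decide +kernel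

theorem c_4_5 : (chk grps 4 10 && chk grps 4 11) = true := by decide +kernel

theorem c_4_6 : (chk grps 4 12 && chk grps 4 13) = true := by decide +kernel

theorem c_4_7 : (chk grps 4 14 && chk grps 4 15) = true := by decide +kernel

theorem c_4_8 : (chk grps 4 16 && chk grps 4 17) = true := by decide +kernel

theorem c_4_9 : (chk grps 4 18 && chk grps 4 19) = true := by decide +kernel

theorem c_4_10 : (chk grps 4 20 && chk grps 4 21) = true := by decide +kernel

theorem c_4_11 : (chk grps 4 22 && chk grps 4 23) = true := by decide +kernel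

theorem c_4_12 : (chk grps 4 24 && chk grps 4 25) = true := by decide +kernel

theorem c_4_13 : (chk grps 4 26 && chk grps 4 27) = true := by decide +kernel

theorem c_4_14 : (chk grps 4 28 && chk grps 4 29) = true := by decide +kernel

theorem c_4_15 : (chk grps 4 30 && chk grps 4 31) = true := by decide +kernel

theorem c_4_16 : (chk grps 4 32 && chk grps 4 33) = true := by decide +kernel

theorem c_4_17 : (chk grps 4 34 && chk grps 4 35) = true := by decide +kernel

theorem c_4_18 : (chk grps 4 36 && chk grps 4 37) = true := by decide +kernel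

theorem c_4_19 : (chk grps 4 38 && chk grps 4 39) = true := by decide +kernel

theorem c_4_20 : (chk grps 4 40 && chk grps 4 41) = true := by decide +kernel

theorem c_4_21 : (chk grps 4 42 && chk grps 4 43) = true := by decide +kernel

theorem c_4_22 : (chk grps 4 44 && chk grps 4 45) = true := by decide +kernel

theorem c_4_23 : (chk grps 4 46 && chk grps 4 47) = true := by decide +kernel

theorem c_4_24 : (chk grps 4 48 && chk grps 4 49) = true := by decide +kernel

theorem c_4_25 : (chk grps 4 50 && chk grps 4 51) = true := by decide +kernel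

theorem c_4_26 : (chk grps 4 52 && chk grps 4 53) = true := by decide +kernel

theorem c_4_27 : (chk grps 4 54 && chk grps 4 55) = true := by decide +kernel

theorem c_4_28 : (chk grps 4 56 && chk grps 4 57) = true := by decide +kernel

theorem c_4_29 : (chk grps 4 58 && chk grps 4 59) = true := by decide +kernel

theorem c_4_30 : (chk grps 4 60 && chk grps 4 61) = true := by decide +kernel

theorem c_4_31 : (chk grps 4 62 && chk grps 4 63) = true := by decide +kernel

theorem chkN_4 : ∀ D < 64, chk grps 4 D = true := by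
  intro D hD
  interval_cases D
  exacts [(Bool.and_eq_true_iff.1 c_4_0).1, (Bool.and_eq_true_iff.1 c_4_0).2,
    (Bool.and_eq_true_iff.1 c_4_1).1, (Bool.and_eq_true_iff.1 c_4_1).2,
    (Bool.and_eq_true_iff.1 c_4_2).1, (Bool.and_eq_true_iff.1 c_4_2).2,
    (Bool.and_eq_true_iff.1 c_4_3).1, (Bool.and_eq_true_iff.1 c_4_3).2,
    (Bool.and_eq_true_iff.1 c_4_4).1, (Bool.and_eq_true_iff.1 c_4_4).2,
    (Bool.and_eq_true_iff.1 c_4_5).1, (Bool.and_eq_true_iff.1 c_4_5).2,
    (Bool.and_eq_true_iff.1 c_4_6).1, (Bool.and_eq_true_iff.1 c_4_6).2,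
    (Bool.and_eq_true_iff.1 c_4_7).1, (Bool.and_eq_true_iff.1 c_4_7).2,
    (Bool.and_eq_true_iff.1 c_4_8).1, (Bool.and_eq_true_iff.1 c_4_8).2,
    (Bool.and_eq_true_iff.1 c_4_9).1, (Bool.and_eq_true_iff.1 c_4_9).2,
    (Bool.and_eq_true_iff.1 c_4_10).1, (Bool.and_eq_true_iff.1 c_4_10).2,
    (Bool.and_eq_true_iff.1 c_4_11).1, (Bool.and_eq_true_iff.1 c_4_11).2,
    (Bool.and_eq_true_iff.1 c_4_12).1, (Bool.and_eq_true_iff.1 c_4_12).2,
    (Bool.and_eq_true_iff.1 c_4_13).1, (Bool.and_eq_true_iff.1 c_4_13).2,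
    (Bool.and_eq_true_iff.1 c_4_14).1, (Bool.and_eq_true_iff.1 c_4_14).2,
    (Bool.and_eq_true_iff.1 c_4_15).1, (Bool.and_eq_true_iff.1 c_4_15).2,
    (Bool.and_eq_true_iff.1 c_4_16).1, (Bool.and_eq_true_iff.1 c_4_16).2,
    (Bool.and_eq_true_iff.1 c_4_17).1, (Bool.and_eq_true_iff.1 c_4_17).2,
    (Bool.and_eq_true_iff.1 c_4_18).1, (Bool.and_eq_true_iff.1 c_4_18).2,
    (Bool.and_eq_true_iff.1 c_4_19).1, (Bool.and_eq_true_iff.1 c_4_19).2,
    (Bool.and_eq_true_iff.1 c_4_20).1, (Bool.and_eq_true_iff.1 c_4_20).2,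
    (Bool.and_eq_true_iff.1 c_4_21).1, (Bool.and_eq_true_iff.1 c_4_21).2,
    (Bool.and_eq_true_iff.1 c_4_22).1, (Bool.and_eq_true_iff.1 c_4_22).2,
    (Bool.and_eq_true_iff.1 c_4_23).1, (Bool.and_eq_true_iff.1 c_4_23).2,
    (Bool.and_eq_true_iff.1 c_4_24).1, (Bool.and_eq_true_iff.1 c_4_24).2,
    (Bool.and_eq_true_iff.1 c_4_25).1, (Bool.and_eq_true_iff.1 c_4_25).2,
    (Bool.and_eq_true_iff.1 c_4_26).1, (Bool.and_eq_true_iff.1 c_4_26).2,
    (Bool.and_eq_true_iff.1 c_4_27).1, (Bool.and_eq_true_iff.1 c_4_27).2,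
    (Bool.and_eq_true_iff.1 c_4_28).1, (Bool.and_eq_true_iff.1 c_4_28).2,
    (Bool.and_eq_true_iff.1 c_4_29).1, (Bool.and_eq_true_iff.1 c_4_29).2,
    (Bool.and_eq_true_iff.1 c_4_30).1, (Bool.and_eq_true_iff.1 c_4_30).2,
    (Bool.and_eq_true_iff.1 c_4_31).1, (Bool.and_eq_true_iff.1 c_4_31).2]

theorem c_12_0 : (chk grps 12 0 && chk grps 12 1) = true := by decide +kernel

theorem c_12_1 : (chk grps 12 2 && chk grps 12 3) = true := by decide +kernel

theorem c_12_2 : (chk grps 12 4 && chk grps 12 5) = true := by decide +kernel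

theorem c_12_3 : (chk grps 12 6 && chk grps 12 7) = true := by decide +kernel

theorem c_12_4 : (chk grps 12 8 && chk grps 12 9) = true := by decide +kernel

theorem c_12_5 : (chk grps 12 10 && chk grps 12 11) = true := by decide +kernel

theorem c_12_6 : (chk grps 12 12 && chk grps 12 13) = true := by decide +kernel

theorem c_12_7 : (chk grps 12 14 && chk grps 12 15) = true := by decide +kernel

theorem c_12_8 : (chk grps 12 16 && chk grps 12 17) = true := by decide +kernel

theorem c_12_9 : (chk grps 12 18 && chk grps 12 19) = true := by decide +kernel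

theorem c_12_10 : (chk grps 12 20 && chk grps 12 21) = true := by decide +kernel

theorem c_12_11 : (chk grps 12 22 && chk grps 12 23) = true := by decide +kernel

theorem c_12_12 : (chk grps 12 24 && chk grps 12 25) = true := by decide +kernel

theorem c_12_13 : (chk grps 12 26 && chk grps 12 27) = true := by decide +kernel

theorem c_12_14 : (chk grps 12 28 && chk grps 12 29) = true := by decide +kernel

theorem c_12_15 : (chk grps 12 30 && chk grps 12 31) = true := by decide +kernel

theorem c_12_16 : (chk grps 12 32 && chk grps 12 33) = true := by decide +kernel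

theorem c_12_17 : (chk grps 12 34 && chk grps 12 35) = true := by decide +kernel

theorem c_12_18 : (chk grps 12 36 && chk grps 12 37) = true := by decide +kernel

theorem c_12_19 : (chk grps 12 38 && chk grps 12 39) = true := by decide +kernel

theorem c_12_20 : (chk grps 12 40 && chk grps 12 41) = true := by decide +kernel

theorem c_12_21 : (chk grps 12 42 && chk grps 12 43) = true := by decide +kernel

theorem c_12_22 : (chk grps 12 44 && chk grps 12 45) = true := by decide +kernel

theorem c_12_23 : (chk grps 12 46 && chk grps 12 47) = true := by decide +kernel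

theorem c_12_24 : (chk grps 12 48 && chk grps 12 49) = true := by decide +kernel

theorem c_12_25 : (chk grps 12 50 && chk grps 12 51) = true := by decide +kernel

theorem c_12_26 : (chk grps 12 52 && chk grps 12 53) = true := by decide +kernel

theorem c_12_27 : (chk grps 12 54 && chk grps 12 55) = true := by decide +kernel

theorem c_12_28 : (chk grps 12 56 && chk grps 12 57) = true := by decide +kernel

theorem c_12_29 : (chk grps 12 58 && chk grps 12 59) = true := by decide +kernel

theorem c_12_30 : (chk grps 12 60 && chk grps 12 61) = true := by decide +kernel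

theorem c_12_31 : (chk grps 12 62 && chk grps 12 63) = true := by decide +kernel

theorem chkN_12 : ∀ D < 64, chk grps 12 D = true := by
  intro D hD
  interval_cases D
  exacts [(Bool.and_eq_true_iff.1 c_12_0).1, (Bool.and_eq_true_iff.1 c_12_0).2,
    (Bool.and_eq_true_iff.1 c_12_1).1, (Bool.and_eq_true_iff.1 c_12_1).2,
    (Bool.and_eq_true_iff.1 c_12_2).1, (Bool.and_eq_true_iff.1 c_12_2).2,
    (Bool.and_eq_true_iff.1 c_12_3).1, (Bool.and_eq_true_iff.1 c_12_3).2,
    (Bool.and_eq_true_iff.1 c_12_4).1, (Bool.and_eq_true_iff.1 c_12_4).2,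
    (Bool.and_eq_true_iff.1 c_12_5).1, (Bool.and_eq_true_iff.1 c_12_5).2,
    (Bool.and_eq_true_iff.1 c_12_6).1, (Bool.and_eq_true_iff.1 c_12_6).2,
    (Bool.and_eq_true_iff.1 c_12_7).1, (Bool.and_eq_true_iff.1 c_12_7).2,
    (Bool.and_eq_true_iff.1 c_12_8).1, (Bool.and_eq_true_iff.1 c_12_8).2,
    (Bool.and_eq_true_iff.1 c_12_9).1, (Bool.and_eq_true_iff.1 c_12_9).2,
    (Bool.and_eq_true_iff.1 c_12_10).1, (Bool.and_eq_true_iff.1 c_12_10).2,
    (Bool.and_eq_true_iff.1 c_12_11).1, (Bool.and_eq_true_iff.1 c_12_11).2,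
    (Bool.and_eq_true_iff.1 c_12_12).1, (Bool.and_eq_true_iff.1 c_12_12).2,
    (Bool.and_eq_true_iff.1 c_12_13).1, (Bool.and_eq_true_iff.1 c_12_13).2,
    (Bool.and_eq_true_iff.1 c_12_14).1, (Bool.and_eq_true_iff.1 c_12_14).2,
    (Bool.and_eq_true_iff.1 c_12_15).1, (Bool.and_eq_true_iff.1 c_12_15).2,
    (Bool.and_eq_true_iff.1 c_12_16).1, (Bool.and_eq_true_iff.1 c_12_16).2,
    (Bool.and_eq_true_iff.1 c_12_17).1, (Bool.and_eq_true_iff.1 c_12_17).2,
    (Bool.and_eq_true_iff.1 c_12_18).1, (Bool.and_eq_true_iff.1 c_12_18).2,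
    (Bool.and_eq_true_iff.1 c_12_19).1, (Bool.and_eq_true_iff.1 c_12_19).2,
    (Bool.and_eq_true_iff.1 c_12_20).1, (Bool.and_eq_true_iff.1 c_12_20).2,
    (Bool.and_eq_true_iff.1 c_12_21).1, (Bool.and_eq_true_iff.1 c_12_21).2,
    (Bool.and_eq_true_iff.1 c_12_22).1, (Bool.and_eq_true_iff.1 c_12_22).2,
    (Bool.and_eq_true_iff.1 c_12_23).1, (Bool.and_eq_true_iff.1 c_12_23).2,
    (Bool.and_eq_true_iff.1 c_12_24).1, (Bool.and_eq_true_iff.1 c_12_24).2,
    (Bool.and_eq_true_iff.1 c_12_25).1, (Bool.and_eq_true_iff.1 c_12_25).2,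
    (Bool.and_eq_true_iff.1 c_12_26).1, (Bool.and_eq_true_iff.1 c_12_26).2,
    (Bool.and_eq_true_iff.1 c_12_27).1, (Bool.and_eq_true_iff.1 c_12_27).2,
    (Bool.and_eq_true_iff.1 c_12_28).1, (Bool.and_eq_true_iff.1 c_12_28).2,
    (Bool.and_eq_true_iff.1 c_12_29).1, (Bool.and_eq_true_iff.1 c_12_29).2,
    (Bool.and_eq_true_iff.1 c_12_30).1, (Bool.and_eq_true_iff.1 c_12_30).2,
    (Bool.and_eq_true_iff.1 c_12_31).1, (Bool.and_eq_true_iff.1 c_12_31).2]

theorem c_13_0 : (chk grps 13 0 && chk grps 13 1) = true := by decide +kernel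

theorem c_13_1 : (chk grps 13 2 && chk grps 13 3) = true := by decide +kernel

theorem c_13_2 : (chk grps 13 4 && chk grps 13 5) = true := by decide +kernel

theorem c_13_3 : (chk grps 13 6 && chk grps 13 7) = true := by decide +kernel

theorem c_13_4 : (chk grps 13 8 && chk grps 13 9) = true := by decide +kernel

theorem c_13_5 : (chk grps 13 10 && chk grps 13 11) = true := by decide +kernel

theorem c_13_6 : (chk grps 13 12 && chk grps 13 13) = true := by decide +kernel

theorem c_13_7 : (chk grps 13 14 && chk grps 13 15) = true := by decide +kernel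

theorem c_13_8 : (chk grps 13 16 && chk grps 13 17) = true := by decide +kernel

theorem c_13_9 : (chk grps 13 18 && chk grps 13 19) = true := by decide +kernel

theorem c_13_10 : (chk grps 13 20 && chk grps 13 21) = true := by decide +kernel

theorem c_13_11 : (chk grps 13 22 && chk grps 13 23) = true := by decide +kernel

theorem c_13_12 : (chk grps 13 24 && chk grps 13 25) = true := by decide +kernel

theorem c_13_13 : (chk grps 13 26 && chk grps 13 27) = true := by decide +kernel

theorem c_13_14 : (chk grps 13 28 && chk grps 13 29) = true := by decide +kernel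

theorem c_13_15 : (chk grps 13 30 && chk grps 13 31) = true := by decide +kernel

theorem c_13_16 : (chk grps 13 32 && chk grps 13 33) = true := by decide +kernel

theorem c_13_17 : (chk grps 13 34 && chk grps 13 35) = true := by decide +kernel

theorem c_13_18 : (chk grps 13 36 && chk grps 13 37) = true := by decide +kernel

theorem c_13_19 : (chk grps 13 38 && chk grps 13 39) = true := by decide +kernel

theorem c_13_20 : (chk grps 13 40 && chk grps 13 41) = true := by decide +kernel

theorem c_13_21 : (chk grps 13 42 && chk grps 13 43) = true := by decide +kernel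

theorem c_13_22 : (chk grps 13 44 && chk grps 13 45) = true := by decide +kernel

theorem c_13_23 : (chk grps 13 46 && chk grps 13 47) = true := by decide +kernel

theorem c_13_24 : (chk grps 13 48 && chk grps 13 49) = true := by decide +kernel

theorem c_13_25 : (chk grps 13 50 && chk grps 13 51) = true := by decide +kernel

theorem c_13_26 : (chk grps 13 52 && chk grps 13 53) = true := by decide +kernel

theorem c_13_27 : (chk grps 13 54 && chk grps 13 55) = true := by decide +kernel

theorem c_13_28 : (chk grps 13 56 && chk grps 13 57) = true := by decide +kernel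

theorem c_13_29 : (chk grps 13 58 && chk grps 13 59) = true := by decide +kernel

theorem c_13_30 : (chk grps 13 60 && chk grps 13 61) = true := by decide +kernel

theorem c_13_31 : (chk grps 13 62 && chk grps 13 63) = true := by decide +kernel

theorem chkN_13 : ∀ D < 64, chk grps 13 D = true := by
  intro D hD
  interval_cases D
  exacts [(Bool.and_eq_true_iff.1 c_13_0).1, (Bool.and_eq_true_iff.1 c_13_0).2,
    (Bool.and_eq_true_iff.1 c_13_1).1, (Bool.and_eq_true_iff.1 c_13_1).2,
    (Bool.and_eq_true_iff.1 c_13_2).1, (Bool.and_eq_true_iff.1 c_13_2).2,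
    (Bool.and_eq_true_iff.1 c_13_3).1, (Bool.and_eq_true_iff.1 c_13_3).2,
    (Bool.and_eq_true_iff.1 c_13_4).1, (Bool.and_eq_true_iff.1 c_13_4).2,
    (Bool.and_eq_true_iff.1 c_13_5).1, (Bool.and_eq_true_iff.1 c_13_5).2,
    (Bool.and_eq_true_iff.1 c_13_6).1, (Bool.and_eq_true_iff.1 c_13_6).2,
    (Bool.and_eq_true_iff.1 c_13_7).1, (Bool.and_eq_true_iff.1 c_13_7).2,
    (Bool.and_eq_true_iff.1 c_13_8).1, (Bool.and_eq_true_iff.1 c_13_8).2,
    (Bool.and_eq_true_iff.1 c_13_9).1, (Bool.and_eq_true_iff.1 c_13_9).2,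
    (Bool.and_eq_true_iff.1 c_13_10).1, (Bool.and_eq_true_iff.1 c_13_10).2,
    (Bool.and_eq_true_iff.1 c_13_11).1, (Bool.and_eq_true_iff.1 c_13_11).2,
    (Bool.and_eq_true_iff.1 c_13_12).1, (Bool.and_eq_true_iff.1 c_13_12).2,
    (Bool.and_eq_true_iff.1 c_13_13).1, (Bool.and_eq_true_iff.1 c_13_13).2,
    (Bool.and_eq_true_iff.1 c_13_14).1, (Bool.and_eq_true_iff.1 c_13_14).2,
    (Bool.and_eq_true_iff.1 c_13_15).1, (Bool.and_eq_true_iff.1 c_13_15).2,
    (Bool.and_eq_true_iff.1 c_13_16).1, (Bool.and_eq_true_iff.1 c_13_16).2,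
    (Bool.and_eq_true_iff.1 c_13_17).1, (Bool.and_eq_true_iff.1 c_13_17).2,
    (Bool.and_eq_true_iff.1 c_13_18).1, (Bool.and_eq_true_iff.1 c_13_18).2,
    (Bool.and_eq_true_iff.1 c_13_19).1, (Bool.and_eq_true_iff.1 c_13_19).2,
    (Bool.and_eq_true_iff.1 c_13_20).1, (Bool.and_eq_true_iff.1 c_13_20).2,
    (Bool.and_eq_true_iff.1 c_13_21).1, (Bool.and_eq_true_iff.1 c_13_21).2,
    (Bool.and_eq_true_iff.1 c_13_22).1, (Bool.and_eq_true_iff.1 c_13_22).2,
    (Bool.and_eq_true_iff.1 c_13_23).1, (Bool.and_eq_true_iff.1 c_13_23).2,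
    (Bool.and_eq_true_iff.1 c_13_24).1, (Bool.and_eq_true_iff.1 c_13_24).2,
    (Bool.and_eq_true_iff.1 c_13_25).1, (Bool.and_eq_true_iff.1 c_13_25).2,
    (Bool.and_eq_true_iff.1 c_13_26).1, (Bool.and_eq_true_iff.1 c_13_26).2,
    (Bool.and_eq_true_iff.1 c_13_27).1, (Bool.and_eq_true_iff.1 c_13_27).2,
    (Bool.and_eq_true_iff.1 c_13_28).1, (Bool.and_eq_true_iff.1 c_13_28).2,
    (Bool.and_eq_true_iff.1 c_13_29).1, (Bool.and_eq_true_iff.1 c_13_29).2,
    (Bool.and_eq_true_iff.1 c_13_30).1, (Bool.and_eq_true_iff.1 c_13_30).2,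
    (Bool.and_eq_true_iff.1 c_13_31).1, (Bool.and_eq_true_iff.1 c_13_31).2]

end Vale.Agent.P359
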