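import Vale.Agent.P359.Data

namespace Vale.Agent.P359

theorem c_5_0 : (chk grps 5 0 && chk grps 5 1) = true := by decide +kernel

theorem c_5_1 : (chk grps 5 2 && chk grps 5 3) = true := by decide +kernel

theorem c_5_2 : (chk grps 5 4 && chk grps 5 5) = true := by decide +kernel

theorem c_5_3 : (chk grps 5 6 && chk grps 5 7) = true := by decide +kernel

theorem c_5_4 : (chk grps 5 8 && chk grps 5 9) = true := by decide +kernel

theorem c_5_5 : (chk grps 5 10 && chk grps 5 11) = true := by decide +kernel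

theorem c_5_6 : (chk grps 5 12 && chk grps 5 13) = true := by decide +kernel

theorem c_5_7 : (chk grps 5 14 && chk grps 5 15) = true := by decide +kernel

theorem c_5_8 : (chk grps 5 16 && chk grps 5 17) = true := by decide +kernel

theorem c_5_9 : (chk grps 5 18 && chk grps 5 19) = true := by decide +kernel

theorem c_5_10 : (chk grps 5 20 && chk grps 5 21) = true := by decide +kernel

theorem c_5_11 : (chk grps 5 22 && chk grps 5 23) = true := by decide +kernel

theorem c_5_12 : (chk grps 5 24 && chk grps 5 25) = true := by decide +kernel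

theorem c_5_13 : (chk grps 5 26 && chk grps 5 27) = true := by decide +kernel

theorem c_5_14 : (chk grps 5 28 && chk grps 5 29) = true := by decide +kernel

theorem c_5_15 : (chk grps 5 30 && chk grps 5 31) = true := by decide +kernel

theorem c_5_16 : (chk grps 5 32 && chk grps 5 33) = true := by decide +kernel

theorem c_5_17 : (chk grps 5 34 && chk grps 5 35) = true := by decide +kernel

theorem c_5_18 : (chk grps 5 36 && chk grps 5 37) = true := by decide +kernel

theorem c_5_19 : (chk grps 5 38 && chk grps 5 39) = true := by decide +kernel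

theorem c_5_20 : (chk grps 5 40 && chk grps 5 41) = true := by decide +kernel

theorem c_5_21 : (chk grps 5 42 && chk grps 5 43) = true := by decide +kernel

theorem c_5_22 : (chk grps 5 44 && chk grps 5 45) = true := by decide +kernel

theorem c_5_23 : (chk grps 5 46 && chk grps 5 47) = true := by decide +kernel

theorem c_5_24 : (chk grps 5 48 && chk grps 5 49) = true := by decide +kernel

theorem c_5_25 : (chk grps 5 50 && chk grps 5 51) = true := by decide +kernel

theorem c_5_26 : (chk grps 5 52 && chk grps 5 53) = true := by decide +kernel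

theorem c_5_27 : (chk grps 5 54 && chk grps 5 55) = true := by decide +kernel

theorem c_5_28 : (chk grps 5 56 && chk grps 5 57) = true := by decide +kernel

theorem c_5_29 : (chk grps 5 58 && chk grps 5 59) = true := by decide +kernel

theorem c_5_30 : (chk grps 5 60 && chk grps 5 61) = true := by decide +kernel

theorem c_5_31 : (chk grps 5 62 && chk grps 5 63) = true := by decide +kernel

theorem chkN_5 : ∀ D < 64, chk grps 5 D = true := by
  intro D hD
  interval_cases D
  exacts [(Bool.and_eq_true_iff.1 c_5_0).1, (Bool.and_eq_true_iff.1 c_5_0).2,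
    (Bool.and_eq_true_iff.1 c_5_1).1, (Bool.and_eq_true_iff.1 c_5_1).2,
    (Bool.and_eq_true_iff.1 c_5_2).1, (Bool.and_eq_true_iff.1 c_5_2).2,
    (Bool.and_eq_true_iff.1 c_5_3).1, (Bool.and_eq_true_iff.1 c_5_3).2,
    (Bool.and_eq_true_iff.1 c_5_4).1, (Bool.and_eq_true_iff.1 c_5_4).2,
    (Bool.and_eq_true_iff.1 c_5_5).1, (Bool.and_eq_true_iff.1 c_5_5).2,
    (Bool.and_eq_true_iff.1 c_5_6).1, (Bool.and_eq_true_iff.1 c_5_6).2,
    (Bool.and_eq_true_iff.1 c_5_7).1, (Bool.and_eq_true_iff.1 c_5_7).2,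
    (Bool.and_eq_true_iff.1 c_5_8).1, (Bool.and_eq_true_iff.1 c_5_8).2,
    (Bool.and_eq_true_iff.1 c_5_9).1, (Bool.and_eq_true_iff.1 c_5_9).2,
    (Bool.and_eq_true_iff.1 c_5_10).1, (Bool.and_eq_true_iff.1 c_5_10).2,
    (Bool.and_eq_true_iff.1 c_5_11).1, (Bool.and_eq_true_iff.1 c_5_11).2,
    (Bool.and_eq_true_iff.1 c_5_12).1, (Bool.and_eq_true_iff.1 c_5_12).2,
    (Bool.and_eq_true_iff.1 c_5_13).1, (Bool.and_eq_true_iff.1 c_5_13).2,
    (Bool.and_eq_true_iff.1 c_5_14).1, (Bool.and_eq_true_iff.1 c_5_14).2,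
    (Bool.and_eq_true_iff.1 c_5_15).1, (Bool.and_eq_true_iff.1 c_5_15).2,
    (Bool.and_eq_true_iff.1 c_5_16).1, (Bool.and_eq_true_iff.1 c_5_16).2,
    (Bool.and_eq_true_iff.1 c_5_17).1, (Bool.and_eq_true_iff.1 c_5_17).2,
    (Bool.and_eq_true_iff.1 c_5_18).1, (Bool.and_eq_true_iff.1 c_5_18).2,
    (Bool.and_eq_true_iff.1 c_5_19).1, (Bool.and_eq_true_iff.1 c_5_19).2,
    (Bool.and_eq_true_iff.1 c_5_20).1, (Bool.and_eq_true_iff.1 c_5_20).2,
    (Bool.and_eq_true_iff.1 c_5_21).1, (Bool.and_eq_true_iff.1 c_5_21).2,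
    (Bool.and_eq_true_iff.1 c_5_22).1, (Bool.and_eq_true_iff.1 c_5_22).2,
    (Bool.and_eq_true_iff.1 c_5_23).1, (Bool.and_eq_true_iff.1 c_5_23).2,
    (Bool.and_eq_true_iff.1 c_5_24).1, (Bool.and_eq_true_iff.1 c_5_24).2,
    (Bool.and_eq_true_iff.1 c_5_25).1, (Bool.and_eq_true_iff.1 c_5_25).2,
    (Bool.and_eq_true_iff.1 c_5_26).1, (Bool.and_eq_true_iff.1 c_5_26).2,
    (Bool.and_eq_true_iff.1 c_5_27).1, (Bool.and_eq_true_iff.1 c_5_27).2,
    (Bool.and_eq_true_iff.1 c_5_28).1, (Bool.and_eq_true_iff.1 c_5_28).2,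
    (Bool.and_eq_true_iff.1 c_5_29).1, (Bool.and_eq_true_iff.1 c_5_29).2,
    (Bool.and_eq_true_iff.1 c_5_30).1, (Bool.and_eq_true_iff.1 c_5_30).2,
    (Bool.and_eq_true_iff.1 c_5_31).1, (Bool.and_eq_true_iff.1 c_5_31).2]

end Vale.Agent.P359
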