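import Vale.Agent.P359.Data

namespace Vale.Agent.P359

theorem c_6_0 : (chk grps 6 0 && chk grps 6 1) = true := by decide +kernel

theorem c_6_1 : (chk grps 6 2 && chk grps 6 3) = true := by decide +kernel

theorem c_6_2 : (chk grps 6 4 && chk grps 6 5) = true := by decide +kernel

theorem c_6_3 : (chk grps 6 6 && chk grps 6 7) = true := by decide +kernel

theorem c_6_4 : (chk grps 6 8 && chk grps 6 9) = true := by decide +kernel

theorem c_6_5 : (chk grps 6 10 && chk grps 6 11) = true := by decide +kernel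

theorem c_6_6 : (chk grps 6 12 && chk grps 6 13) = true := by decide +kernel

theorem c_6_7 : (chk grps 6 14 && chk grps 6 15) = true := by decide +kernel

theorem c_6_8 : (chk grps 6 16 && chk grps 6 17) = true := by decide +kernel

theorem c_6_9 : (chk grps 6 18 && chk grps 6 19) = true := by decide +kernel

theorem c_6_10 : (chk grps 6 20 && chk grps 6 21) = true := by decide +kernel

theorem c_6_11 : (chk grps 6 22 && chk grps 6 23) = true := by decide +kernel

theorem c_6_12 : (chk grps 6 24 && chk grps 6 25) = true := by decide +kernel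

theorem c_6_13 : (chk grps 6 26 && chk grps 6 27) = true := by decide +kernel

theorem c_6_14 : (chk grps 6 28 && chk grps 6 29) = true := by decide +kernel

theorem c_6_15 : (chk grps 6 30 && chk grps 6 31) = true := by decide +kernel

theorem c_6_16 : (chk grps 6 32 && chk grps 6 33) = true := by decide +kernel

theorem c_6_17 : (chk grps 6 34 && chk grps 6 35) = true := by decide +kernel

theorem c_6_18 : (chk grps 6 36 && chk grps 6 37) = true := by decide +kernel

theorem c_6_19 : (chk grps 6 38 && chk grps 6 39) = true := by decide +kernel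

theorem c_6_20 : (chk grps 6 40 && chk grps 6 41) = true := by decide +kernel

theorem c_6_21 : (chk grps 6 42 && chk grps 6 43) = true := by decide +kernel

theorem c_6_22 : (chk grps 6 44 && chk grps 6 45) = true := by decide +kernel

theorem c_6_23 : (chk grps 6 46 && chk grps 6 47) = true := by decide +kernel

theorem c_6_24 : (chk grps 6 48 && chk grps 6 49) = true := by decide +kernel

theorem c_6_25 : (chk grps 6 50 && chk grps 6 51) = true := by decide +kernel

theorem c_6_26 : (chk grps 6 52 && chk grps 6 53) = true := by decide +kernel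

theorem c_6_27 : (chk grps 6 54 && chk grps 6 55) = true := by decide +kernel

theorem c_6_28 : (chk grps 6 56 && chk grps 6 57) = true := by decide +kernel

theorem c_6_29 : (chk grps 6 58 && chk grps 6 59) = true := by decide +kernel

theorem c_6_30 : (chk grps 6 60 && chk grps 6 61) = true := by decide +kernel

theorem c_6_31 : (chk grps 6 62 && chk grps 6 63) = true := by decide +kernel

theorem chkN_6 : ∀ D < 64, chk grps 6 D = true := by
  intro D hD
  interval_cases D
  exacts [(Bool.and_eq_true_iff.1 c_6_0).1, (Bool.and_eq_true_iff.1 c_6_0).2,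
    (Bool.and_eq_true_iff.1 c_6_1).1, (Bool.and_eq_true_iff.1 c_6_1).2,
    (Bool.and_eq_true_iff.1 c_6_2).1, (Bool.and_eq_true_iff.1 c_6_2).2,
    (Bool.and_eq_true_iff.1 c_6_3).1, (Bool.and_eq_true_iff.1 c_6_3).2,
    (Bool.and_eq_true_iff.1 c_6_4).1, (Bool.and_eq_true_iff.1 c_6_4).2,
    (Bool.and_eq_true_iff.1 c_6_5).1, (Bool.and_eq_true_iff.1 c_6_5).2,
    (Bool.and_eq_true_iff.1 c_6_6).1, (Bool.and_eq_true_iff.1 c_6_6).2,
    (Bool.and_eq_true_iff.1 c_6_7).1, (Bool.and_eq_true_iff.1 c_6_7).2,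
    (Bool.and_eq_true_iff.1 c_6_8).1, (Bool.and_eq_true_iff.1 c_6_8).2,
    (Bool.and_eq_true_iff.1 c_6_9).1, (Bool.and_eq_true_iff.1 c_6_9).2,
    (Bool.and_eq_true_iff.1 c_6_10).1, (Bool.and_eq_true_iff.1 c_6_10).2,
    (Bool.and_eq_true_iff.1 c_6_11).1, (Bool.and_eq_true_iff.1 c_6_11).2,
    (Bool.and_eq_true_iff.1 c_6_12).1, (Bool.and_eq_true_iff.1 c_6_12).2,
    (Bool.and_eq_true_iff.1 c_6_13).1, (Bool.and_eq_true_iff.1 c_6_13).2,
    (Bool.and_eq_true_iff.1 c_6_14).1, (Bool.and_eq_true_iff.1 c_6_14).2,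
    (Bool.and_eq_true_iff.1 c_6_15).1, (Bool.and_eq_true_iff.1 c_6_15).2,
    (Bool.and_eq_true_iff.1 c_6_16).1, (Bool.and_eq_true_iff.1 c_6_16).2,
    (Bool.and_eq_true_iff.1 c_6_17).1, (Bool.and_eq_true_iff.1 c_6_17).2,
    (Bool.and_eq_true_iff.1 c_6_18).1, (Bool.and_eq_true_iff.1 c_6_18).2,
    (Bool.and_eq_true_iff.1 c_6_19).1, (Bool.and_eq_true_iff.1 c_6_19).2,
    (Bool.and_eq_true_iff.1 c_6_20).1, (Bool.and_eq_true_iff.1 c_6_20).2,
    (Bool.and_eq_true_iff.1 c_6_21).1, (Bool.and_eq_true_iff.1 c_6_21).2,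
    (Bool.and_eq_true_iff.1 c_6_22).1, (Bool.and_eq_true_iff.1 c_6_22).2,
    (Bool.and_eq_true_iff.1 c_6_23).1, (Bool.and_eq_true_iff.1 c_6_23).2,
    (Bool.and_eq_true_iff.1 c_6_24).1, (Bool.and_eq_true_iff.1 c_6_24).2,
    (Bool.and_eq_true_iff.1 c_6_25).1, (Bool.and_eq_true_iff.1 c_6_25).2,
    (Bool.and_eq_true_iff.1 c_6_26).1, (Bool.and_eq_true_iff.1 c_6_26).2,
    (Bool.and_eq_true_iff.1 c_6_27).1, (Bool.and_eq_true_iff.1 c_6_27).2,
    (Bool.and_eq_true_iff.1 c_6_28).1, (Bool.and_eq_true_iff.1 c_6_28).2,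
    (Bool.and_eq_true_iff.1 c_6_29).1, (Bool.and_eq_true_iff.1 c_6_29).2,
    (Bool.and_eq_true_iff.1 c_6_30).1, (Bool.and_eq_true_iff.1 c_6_30).2,
    (Bool.and_eq_true_iff.1 c_6_31).1, (Bool.and_eq_true_iff.1 c_6_31).2]

end Vale.Agent.P359
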