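import Vale.Agent.P359.Data

namespace Vale.Agent.P359

theorem c_7_0 : (chk grps 7 0 && chk grps 7 1) = true := by decide +kernel

theorem c_7_1 : (chk grps 7 2 && chk grps 7 3) = true := by decide +kernel

theorem c_7_2 : (chk grps 7 4 && chk grps 7 5) = true := by decide +kernel

theorem c_7_3 : (chk grps 7 6 && chk grps 7 7) = true := by decide +kernel

theorem c_7_4 : (chk grps 7 8 && chk grps 7 9) = true := by decide +kernel

theorem c_7_5 : (chk grps 7 10 && chk grps 7 11) = true := by decide +kernel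

theorem c_7_6 : (chk grps 7 12 && chk grps 7 13) = true := by decide +kernel

theorem c_7_7 : (chk grps 7 14 && chk grps 7 15) = true := by decide +kernel

theorem c_7_8 : (chk grps 7 16 && chk grps 7 17) = true := by decide +kernel

theorem c_7_9 : (chk grps 7 18 && chk grps 7 19) = true := by decide +kernel

theorem c_7_10 : (chk grps 7 20 && chk grps 7 21) = true := by decide +kernel

theorem c_7_11 : (chk grps 7 22 && chk grps 7 23) = true := by decide +kernel

theorem c_7_12 : (chk grps 7 24 && chk grps 7 25) = true := by decide +kernel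

theorem c_7_13 : (chk grps 7 26 && chk grps 7 27) = true := by decide +kernel

theorem c_7_14 : (chk grps 7 28 && chk grps 7 29) = true := by decide +kernel

theorem c_7_15 : (chk grps 7 30 && chk grps 7 31) = true := by decide +kernel

theorem c_7_16 : (chk grps 7 32 && chk grps 7 33) = true := by decide +kernel

theorem c_7_17 : (chk grps 7 34 && chk grps 7 35) = true := by decide +kernel

theorem c_7_18 : (chk grps 7 36 && chk grps 7 37) = true := by decide +kernel

theorem c_7_19 : (chk grps 7 38 && chk grps 7 39) = true := by decide +kernel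

theorem c_7_20 : (chk grps 7 40 && chk grps 7 41) = true := by decide +kernel

theorem c_7_21 : (chk grps 7 42 && chk grps 7 43) = true := by decide +kernel

theorem c_7_22 : (chk grps 7 44 && chk grps 7 45) = true := by decide +kernel

theorem c_7_23 : (chk grps 7 46 && chk grps 7 47) = true := by decide +kernel

theorem c_7_24 : (chk grps 7 48 && chk grps 7 49) = true := by decide +kernel

theorem c_7_25 : (chk grps 7 50 && chk grps 7 51) = true := by decide +kernel

theorem c_7_26 : (chk grps 7 52 && chk grps 7 53) = true := by decide +kernel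

theorem c_7_27 : (chk grps 7 54 && chk grps 7 55) = true := by decide +kernel

theorem c_7_28 : (chk grps 7 56 && chk grps 7 57) = true := by decide +kernel

theorem c_7_29 : (chk grps 7 58 && chk grps 7 59) = true := by decide +kernel

theorem c_7_30 : (chk grps 7 60 && chk grps 7 61) = true := by decide +kernel

theorem c_7_31 : (chk grps 7 62 && chk grps 7 63) = true := by decide +kernel

theorem chkN_7 : ∀ D < 64, chk grps 7 D = true := by
  intro D hD
  interval_cases D
  exacts [(Bool.and_eq_true_iff.1 c_7_0).1, (Bool.and_eq_true_iff.1 c_7_0).2,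
    (Bool.and_eq_true_iff.1 c_7_1).1, (Bool.and_eq_true_iff.1 c_7_1).2,
    (Bool.and_eq_true_iff.1 c_7_2).1, (Bool.and_eq_true_iff.1 c_7_2).2,
    (Bool.and_eq_true_iff.1 c_7_3).1, (Bool.and_eq_true_iff.1 c_7_3).2,
    (Bool.and_eq_true_iff.1 c_7_4).1, (Bool.and_eq_true_iff.1 c_7_4).2,
    (Bool.and_eq_true_iff.1 c_7_5).1, (Bool.and_eq_true_iff.1 c_7_5).2,
    (Bool.and_eq_true_iff.1 c_7_6).1, (Bool.and_eq_true_iff.1 c_7_6).2,
    (Bool.and_eq_true_iff.1 c_7_7).1, (Bool.and_eq_true_iff.1 c_7_7).2,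
    (Bool.and_eq_true_iff.1 c_7_8).1, (Bool.and_eq_true_iff.1 c_7_8).2,
    (Bool.and_eq_true_iff.1 c_7_9).1, (Bool.and_eq_true_iff.1 c_7_9).2,
    (Bool.and_eq_true_iff.1 c_7_10).1, (Bool.and_eq_true_iff.1 c_7_10).2,
    (Bool.and_eq_true_iff.1 c_7_11).1, (Bool.and_eq_true_iff.1 c_7_11).2,
    (Bool.and_eq_true_iff.1 c_7_12).1, (Bool.and_eq_true_iff.1 c_7_12).2,
    (Bool.and_eq_true_iff.1 c_7_13).1, (Bool.and_eq_true_iff.1 c_7_13).2,
    (Bool.and_eq_true_iff.1 c_7_14).1, (Bool.and_eq_true_iff.1 c_7_14).2,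
    (Bool.and_eq_true_iff.1 c_7_15).1, (Bool.and_eq_true_iff.1 c_7_15).2,
    (Bool.and_eq_true_iff.1 c_7_16).1, (Bool.and_eq_true_iff.1 c_7_16).2,
    (Bool.and_eq_true_iff.1 c_7_17).1, (Bool.and_eq_true_iff.1 c_7_17).2,
    (Bool.and_eq_true_iff.1 c_7_18).1, (Bool.and_eq_true_iff.1 c_7_18).2,
    (Bool.and_eq_true_iff.1 c_7_19).1, (Bool.and_eq_true_iff.1 c_7_19).2,
    (Bool.and_eq_true_iff.1 c_7_20).1, (Bool.and_eq_true_iff.1 c_7_20).2,
    (Bool.and_eq_true_iff.1 c_7_21).1, (Bool.and_eq_true_iff.1 c_7_21).2,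
    (Bool.and_eq_true_iff.1 c_7_22).1, (Bool.and_eq_true_iff.1 c_7_22).2,
    (Bool.and_eq_true_iff.1 c_7_23).1, (Bool.and_eq_true_iff.1 c_7_23).2,
    (Bool.and_eq_true_iff.1 c_7_24).1, (Bool.and_eq_true_iff.1 c_7_24).2,
    (Bool.and_eq_true_iff.1 c_7_25).1, (Bool.and_eq_true_iff.1 c_7_25).2,
    (Bool.and_eq_true_iff.1 c_7_26).1, (Bool.and_eq_true_iff.1 c_7_26).2,
    (Bool.and_eq_true_iff.1 c_7_27).1, (Bool.and_eq_true_iff.1 c_7_27).2,
    (Bool.and_eq_true_iff.1 c_7_28).1, (Bool.and_eq_true_iff.1 c_7_28).2,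
    (Bool.and_eq_true_iff.1 c_7_29).1, (Bool.and_eq_true_iff.1 c_7_29).2,
    (Bool.and_eq_true_iff.1 c_7_30).1, (Bool.and_eq_true_iff.1 c_7_30).2,
    (Bool.and_eq_true_iff.1 c_7_31).1, (Bool.and_eq_true_iff.1 c_7_31).2]

end Vale.Agent.P359
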