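import Vale.Agent.P359.Data

namespace Vale.Agent.P359

theorem c_8_0 : (chk grps 8 0 && chk grps 8 1) = true := by decide +kernel

theorem c_8_1 : (chk grps 8 2 && chk grps 8 3) = true := by decide +kernel

theorem c_8_2 : (chk grps 8 4 && chk grps 8 5) = true := by decide +kernel

theorem c_8_3 : (chk grps 8 6 && chk grps 8 7) = true := by decide +kernel

theorem c_8_4 : (chk grps 8 8 && chk grps 8 9) = true := by decide +kernel

theorem c_8_5 : (chk grps 8 10 && chk grps 8 11) = true := by decide +kernel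

theorem c_8_6 : (chk grps 8 12 && chk grps 8 13) = true := by decide +kernel

theorem c_8_7 : (chk grps 8 14 && chk grps 8 15) = true := by decide +kernel

theorem c_8_8 : (chk grps 8 16 && chk grps 8 17) = true := by decide +kernel

theorem c_8_9 : (chk grps 8 18 && chk grps 8 19) = true := by decide +kernel

theorem c_8_10 : (chk grps 8 20 && chk grps 8 21) = true := by decide +kernel

theorem c_8_11 : (chk grps 8 22 && chk grps 8 23) = true := by decide +kernel

theorem c_8_12 : (chk grps 8 24 && chk grps 8 25) = true := by decide +kernel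

theorem c_8_13 : (chk grps 8 26 && chk grps 8 27) = true := by decide +kernel

theorem c_8_14 : (chk grps 8 28 && chk grps 8 29) = true := by decide +kernel

theorem c_8_15 : (chk grps 8 30 && chk grps 8 31) = true := by decide +kernel

theorem c_8_16 : (chk grps 8 32 && chk grps 8 33) = true := by decide +kernel

theorem c_8_17 : (chk grps 8 34 && chk grps 8 35) = true := by decide +kernel

theorem c_8_18 : (chk grps 8 36 && chk grps 8 37) = true := by decide +kernel

theorem c_8_19 : (chk grps 8 38 && chk grps 8 39) = true := by decide +kernel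

theorem c_8_20 : (chk grps 8 40 && chk grps 8 41) = true := by decide +kernel

theorem c_8_21 : (chk grps 8 42 && chk grps 8 43) = true := by decide +kernel

theorem c_8_22 : (chk grps 8 44 && chk grps 8 45) = true := by decide +kernel

theorem c_8_23 : (chk grps 8 46 && chk grps 8 47) = true := by decide +kernel

theorem c_8_24 : (chk grps 8 48 && chk grps 8 49) = true := by decide +kernel

theorem c_8_25 : (chk grps 8 50 && chk grps 8 51) = true := by decide +kernel

theorem c_8_26 : (chk grps 8 52 && chk grps 8 53) = true := by decide +kernel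

theorem c_8_27 : (chk grps 8 54 && chk grps 8 55) = true := by decide +kernel

theorem c_8_28 : (chk grps 8 56 && chk grps 8 57) = true := by decide +kernel

theorem c_8_29 : (chk grps 8 58 && chk grps 8 59) = true := by decide +kernel

theorem c_8_30 : (chk grps 8 60 && chk grps 8 61) = true := by decide +kernel

theorem c_8_31 : (chk grps 8 62 && chk grps 8 63) = true := by decide +kernel

theorem chkN_8 : ∀ D < 64, chk grps 8 D = true := by
  intro D hD
  interval_cases D
  exacts [(Bool.and_eq_true_iff.1 c_8_0).1, (Bool.and_eq_true_iff.1 c_8_0).2,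
    (Bool.and_eq_true_iff.1 c_8_1).1, (Bool.and_eq_true_iff.1 c_8_1).2,
    (Bool.and_eq_true_iff.1 c_8_2).1, (Bool.and_eq_true_iff.1 c_8_2).2,
    (Bool.and_eq_true_iff.1 c_8_3).1, (Bool.and_eq_true_iff.1 c_8_3).2,
    (Bool.and_eq_true_iff.1 c_8_4).1, (Bool.and_eq_true_iff.1 c_8_4).2,
    (Bool.and_eq_true_iff.1 c_8_5).1, (Bool.and_eq_true_iff.1 c_8_5).2,
    (Bool.and_eq_true_iff.1 c_8_6).1, (Bool.and_eq_true_iff.1 c_8_6).2,
    (Bool.and_eq_true_iff.1 c_8_7).1, (Bool.and_eq_true_iff.1 c_8_7).2,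
    (Bool.and_eq_true_iff.1 c_8_8).1, (Bool.and_eq_true_iff.1 c_8_8).2,
    (Bool.and_eq_true_iff.1 c_8_9).1, (Bool.and_eq_true_iff.1 c_8_9).2,
    (Bool.and_eq_true_iff.1 c_8_10).1, (Bool.and_eq_true_iff.1 c_8_10).2,
    (Bool.and_eq_true_iff.1 c_8_11).1, (Bool.and_eq_true_iff.1 c_8_11).2,
    (Bool.and_eq_true_iff.1 c_8_12).1, (Bool.and_eq_true_iff.1 c_8_12).2,
    (Bool.and_eq_true_iff.1 c_8_13).1, (Bool.and_eq_true_iff.1 c_8_13).2,
    (Bool.and_eq_true_iff.1 c_8_14).1, (Bool.and_eq_true_iff.1 c_8_14).2,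
    (Bool.and_eq_true_iff.1 c_8_15).1, (Bool.and_eq_true_iff.1 c_8_15).2,
    (Bool.and_eq_true_iff.1 c_8_16).1, (Bool.and_eq_true_iff.1 c_8_16).2,
    (Bool.and_eq_true_iff.1 c_8_17).1, (Bool.and_eq_true_iff.1 c_8_17).2,
    (Bool.and_eq_true_iff.1 c_8_18).1, (Bool.and_eq_true_iff.1 c_8_18).2,
    (Bool.and_eq_true_iff.1 c_8_19).1, (Bool.and_eq_true_iff.1 c_8_19).2,
    (Bool.and_eq_true_iff.1 c_8_20).1, (Bool.and_eq_true_iff.1 c_8_20).2,
    (Bool.and_eq_true_iff.1 c_8_21).1, (Bool.and_eq_true_iff.1 c_8_21).2,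
    (Bool.and_eq_true_iff.1 c_8_22).1, (Bool.and_eq_true_iff.1 c_8_22).2,
    (Bool.and_eq_true_iff.1 c_8_23).1, (Bool.and_eq_true_iff.1 c_8_23).2,
    (Bool.and_eq_true_iff.1 c_8_24).1, (Bool.and_eq_true_iff.1 c_8_24).2,
    (Bool.and_eq_true_iff.1 c_8_25).1, (Bool.and_eq_true_iff.1 c_8_25).2,
    (Bool.and_eq_true_iff.1 c_8_26).1, (Bool.and_eq_true_iff.1 c_8_26).2,
    (Bool.and_eq_true_iff.1 c_8_27).1, (Bool.and_eq_true_iff.1 c_8_27).2,
    (Bool.and_eq_true_iff.1 c_8_28).1, (Bool.and_eq_true_iff.1 c_8_28).2,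
    (Bool.and_eq_true_iff.1 c_8_29).1, (Bool.and_eq_true_iff.1 c_8_29).2,
    (Bool.and_eq_true_iff.1 c_8_30).1, (Bool.and_eq_true_iff.1 c_8_30).2,
    (Bool.and_eq_true_iff.1 c_8_31).1, (Bool.and_eq_true_iff.1 c_8_31).2]

end Vale.Agent.P359
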