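import Vale.Agent.P359.Data

namespace Vale.Agent.P359

theorem c_9_0 : (chk grps 9 0 && chk grps 9 1) = true := by decide +kernel

theorem c_9_1 : (chk grps 9 2 && chk grps 9 3) = true := by decide +kernel

theorem c_9_2 : (chk grps 9 4 && chk grps 9 5) = true := by decide +kernel

theorem c_9_3 : (chk grps 9 6 && chk grps 9 7) = true := by decide +kernel

theorem c_9_4 : (chk grps 9 8 && chk grps 9 9) = true := by decide +kernel

theorem c_9_5 : (chk grps 9 10 && chk grps 9 11) = true := by decide +kernel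

theorem c_9_6 : (chk grps 9 12 && chk grps 9 13) = true := by decide +kernel

theorem c_9_7 : (chk grps 9 14 && chk grps 9 15) = true := by decide +kernel

theorem c_9_8 : (chk grps 9 16 && chk grps 9 17) = true := by decide +kernel

theorem c_9_9 : (chk grps 9 18 && chk grps 9 19) = true := by decide +kernel

theorem c_9_10 : (chk grps 9 20 && chk grps 9 21) = true := by decide +kernel

theorem c_9_11 : (chk grps 9 22 && chk grps 9 23) = true := by decide +kernel

theorem c_9_12 : (chk grps 9 24 && chk grps 9 25) = true := by decide +kernel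

theorem c_9_13 : (chk grps 9 26 && chk grps 9 27) = true := by decide +kernel

theorem c_9_14 : (chk grps 9 28 && chk grps 9 29) = true := by decide +kernel

theorem c_9_15 : (chk grps 9 30 && chk grps 9 31) = true := by decide +kernel

theorem c_9_16 : (chk grps 9 32 && chk grps 9 33) = true := by decide +kernel

theorem c_9_17 : (chk grps 9 34 && chk grps 9 35) = true := by decide +kernel

theorem c_9_18 : (chk grps 9 36 && chk grps 9 37) = true := by decide +kernel

theorem c_9_19 : (chk grps 9 38 && chk grps 9 39) = true := by decide +kernel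

theorem c_9_20 : (chk grps 9 40 && chk grps 9 41) = true := by decide +kernel

theorem c_9_21 : (chk grps 9 42 && chk grps 9 43) = true := by decide +kernel

theorem c_9_22 : (chk grps 9 44 && chk grps 9 45) = true := by decide +kernel

theorem c_9_23 : (chk grps 9 46 && chk grps 9 47) = true := by decide +kernel

theorem c_9_24 : (chk grps 9 48 && chk grps 9 49) = true := by decide +kernel

theorem c_9_25 : (chk grps 9 50 && chk grps 9 51) = true := by decide +kernel

theorem c_9_26 : (chk grps 9 52 && chk grps 9 53) = true := by decide +kernel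

theorem c_9_27 : (chk grps 9 54 && chk grps 9 55) = true := by decide +kernel

theorem c_9_28 : (chk grps 9 56 && chk grps 9 57) = true := by decide +kernel

theorem c_9_29 : (chk grps 9 58 && chk grps 9 59) = true := by decide +kernel

theorem c_9_30 : (chk grps 9 60 && chk grps 9 61) = true := by decide +kernel

theorem c_9_31 : (chk grps 9 62 && chk grps 9 63) = true := by decide +kernel

theorem chkN_9 : ∀ D < 64, chk grps 9 D = true := by
  intro D hD
  interval_cases D
  exacts [(Bool.and_eq_true_iff.1 c_9_0).1, (Bool.and_eq_true_iff.1 c_9_0).2,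
    (Bool.and_eq_true_iff.1 c_9_1).1, (Bool.and_eq_true_iff.1 c_9_1).2,
    (Bool.and_eq_true_iff.1 c_9_2).1, (Bool.and_eq_true_iff.1 c_9_2).2,
    (Bool.and_eq_true_iff.1 c_9_3).1, (Bool.and_eq_true_iff.1 c_9_3).2,
    (Bool.and_eq_true_iff.1 c_9_4).1, (Bool.and_eq_true_iff.1 c_9_4).2,
    (Bool.and_eq_true_iff.1 c_9_5).1, (Bool.and_eq_true_iff.1 c_9_5).2,
    (Bool.and_eq_true_iff.1 c_9_6).1, (Bool.and_eq_true_iff.1 c_9_6).2,
    (Bool.and_eq_true_iff.1 c_9_7).1, (Bool.and_eq_true_iff.1 c_9_7).2,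
    (Bool.and_eq_true_iff.1 c_9_8).1, (Bool.and_eq_true_iff.1 c_9_8).2,
    (Bool.and_eq_true_iff.1 c_9_9).1, (Bool.and_eq_true_iff.1 c_9_9).2,
    (Bool.and_eq_true_iff.1 c_9_10).1, (Bool.and_eq_true_iff.1 c_9_10).2,
    (Bool.and_eq_true_iff.1 c_9_11).1, (Bool.and_eq_true_iff.1 c_9_11).2,
    (Bool.and_eq_true_iff.1 c_9_12).1, (Bool.and_eq_true_iff.1 c_9_12).2,
    (Bool.and_eq_true_iff.1 c_9_13).1, (Bool.and_eq_true_iff.1 c_9_13).2,
    (Bool.and_eq_true_iff.1 c_9_14).1, (Bool.and_eq_true_iff.1 c_9_14).2,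
    (Bool.and_eq_true_iff.1 c_9_15).1, (Bool.and_eq_true_iff.1 c_9_15).2,
    (Bool.and_eq_true_iff.1 c_9_16).1, (Bool.and_eq_true_iff.1 c_9_16).2,
    (Bool.and_eq_true_iff.1 c_9_17).1, (Bool.and_eq_true_iff.1 c_9_17).2,
    (Bool.and_eq_true_iff.1 c_9_18).1, (Bool.and_eq_true_iff.1 c_9_18).2,
    (Bool.and_eq_true_iff.1 c_9_19).1, (Bool.and_eq_true_iff.1 c_9_19).2,
    (Bool.and_eq_true_iff.1 c_9_20).1, (Bool.and_eq_true_iff.1 c_9_20).2,
    (Bool.and_eq_true_iff.1 c_9_21).1, (Bool.and_eq_true_iff.1 c_9_21).2,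
    (Bool.and_eq_true_iff.1 c_9_22).1, (Bool.and_eq_true_iff.1 c_9_22).2,
    (Bool.and_eq_true_iff.1 c_9_23).1, (Bool.and_eq_true_iff.1 c_9_23).2,
    (Bool.and_eq_true_iff.1 c_9_24).1, (Bool.and_eq_true_iff.1 c_9_24).2,
    (Bool.and_eq_true_iff.1 c_9_25).1, (Bool.and_eq_true_iff.1 c_9_25).2,
    (Bool.and_eq_true_iff.1 c_9_26).1, (Bool.and_eq_true_iff.1 c_9_26).2,
    (Bool.and_eq_true_iff.1 c_9_27).1, (Bool.and_eq_true_iff.1 c_9_27).2,
    (Bool.and_eq_true_iff.1 c_9_28).1, (Bool.and_eq_true_iff.1 c_9_28).2,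
    (Bool.and_eq_true_iff.1 c_9_29).1, (Bool.and_eq_true_iff.1 c_9_29).2,
    (Bool.and_eq_true_iff.1 c_9_30).1, (Bool.and_eq_true_iff.1 c_9_30).2,
    (Bool.and_eq_true_iff.1 c_9_31).1, (Bool.and_eq_true_iff.1 c_9_31).2]

end Vale.Agent.P359
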