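import Vale.Agent.P359.Data

namespace Vale.Agent.P359

theorem c_10_0 : (chk grps 10 0 && chk grps 10 1) = true := by decide +kernel

theorem c_10_1 : (chk grps 10 2 && chk grps 10 3) = true := by decide +kernel

theorem c_10_2 : (chk grps 10 4 && chk grps 10 5) = true := by decide +kernel

theorem c_10_3 : (chk grps 10 6 && chk grps 10 7) = true := by decide +kernel

theorem c_10_4 : (chk grps 10 8 && chk grps 10 9) = true := by decide +kernel

theorem c_10_5 : (chk grps 10 10 && chk grps 10 11) = true := by decide +kernel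

theorem c_10_6 : (chk grps 10 12 && chk grps 10 13) = true := by decide +kernel

theorem c_10_7 : (chk grps 10 14 && chk grps 10 15) = true := by decide +kernel

theorem c_10_8 : (chk grps 10 16 && chk grps 10 17) = true := by decide +kernel

theorem c_10_9 : (chk grps 10 18 && chk grps 10 19) = true := by decide +kernel

theorem c_10_10 : (chk grps 10 20 && chk grps 10 21) = true := by decide +kernel

theorem c_10_11 : (chk grps 10 22 && chk grps 10 23) = true := by decide +kernel

theorem c_10_12 : (chk grps 10 24 && chk grps 10 25) = true := by decide +kernel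

theorem c_10_13 : (chk grps 10 26 && chk grps 10 27) = true := by decide +kernel

theorem c_10_14 : (chk grps 10 28 && chk grps 10 29) = true := by decide +kernel

theorem c_10_15 : (chk grps 10 30 && chk grps 10 31) = true := by decide +kernel

theorem c_10_16 : (chk grps 10 32 && chk grps 10 33) = true := by decide +kernel

theorem c_10_17 : (chk grps 10 34 && chk grps 10 35) = true := by decide +kernel

theorem c_10_18 : (chk grps 10 36 && chk grps 10 37) = true := by decide +kernel

theorem c_10_19 : (chk grps 10 38 && chk grps 10 39) = true := by decide +kernel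

theorem c_10_20 : (chk grps 10 40 && chk grps 10 41) = true := by decide +kernel

theorem c_10_21 : (chk grps 10 42 && chk grps 10 43) = true := by decide +kernel

theorem c_10_22 : (chk grps 10 44 && chk grps 10 45) = true := by decide +kernel

theorem c_10_23 : (chk grps 10 46 && chk grps 10 47) = true := by decide +kernel

theorem c_10_24 : (chk grps 10 48 && chk grps 10 49) = true := by decide +kernel

theorem c_10_25 : (chk grps 10 50 && chk grps 10 51) = true := by decide +kernel

theorem c_10_26 : (chk grps 10 52 && chk grps 10 53) = true := by decide +kernel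

theorem c_10_27 : (chk grps 10 54 && chk grps 10 55) = true := by decide +kernel

theorem c_10_28 : (chk grps 10 56 && chk grps 10 57) = true := by decide +kernel

theorem c_10_29 : (chk grps 10 58 && chk grps 10 59) = true := by decide +kernel

theorem c_10_30 : (chk grps 10 60 && chk grps 10 61) = true := by decide +kernel

theorem c_10_31 : (chk grps 10 62 && chk grps 10 63) = true := by decide +kernel

theorem chkN_10 : ∀ D < 64, chk grps 10 D = true := by
  intro D hD
  interval_cases D
  exacts [(Bool.and_eq_true_iff.1 c_10_0).1, (Bool.and_eq_true_iff.1 c_10_0).2,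
    (Bool.and_eq_true_iff.1 c_10_1).1, (Bool.and_eq_true_iff.1 c_10_1).2,
    (Bool.and_eq_true_iff.1 c_10_2).1, (Bool.and_eq_true_iff.1 c_10_2).2,
    (Bool.and_eq_true_iff.1 c_10_3).1, (Bool.and_eq_true_iff.1 c_10_3).2,
    (Bool.and_eq_true_iff.1 c_10_4).1, (Bool.and_eq_true_iff.1 c_10_4).2,
    (Bool.and_eq_true_iff.1 c_10_5).1, (Bool.and_eq_true_iff.1 c_10_5).2,
    (Bool.and_eq_true_iff.1 c_10_6).1, (Bool.and_eq_true_iff.1 c_10_6).2,
    (Bool.and_eq_true_iff.1 c_10_7).1, (Bool.and_eq_true_iff.1 c_10_7).2,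
    (Bool.and_eq_true_iff.1 c_10_8).1, (Bool.and_eq_true_iff.1 c_10_8).2,
    (Bool.and_eq_true_iff.1 c_10_9).1, (Bool.and_eq_true_iff.1 c_10_9).2,
    (Bool.and_eq_true_iff.1 c_10_10).1, (Bool.and_eq_true_iff.1 c_10_10).2,
    (Bool.and_eq_true_iff.1 c_10_11).1, (Bool.and_eq_true_iff.1 c_10_11).2,
    (Bool.and_eq_true_iff.1 c_10_12).1, (Bool.and_eq_true_iff.1 c_10_12).2,
    (Bool.and_eq_true_iff.1 c_10_13).1, (Bool.and_eq_true_iff.1 c_10_13).2,
    (Bool.and_eq_true_iff.1 c_10_14).1, (Bool.and_eq_true_iff.1 c_10_14).2,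
    (Bool.and_eq_true_iff.1 c_10_15).1, (Bool.and_eq_true_iff.1 c_10_15).2,
    (Bool.and_eq_true_iff.1 c_10_16).1, (Bool.and_eq_true_iff.1 c_10_16).2,
    (Bool.and_eq_true_iff.1 c_10_17).1, (Bool.and_eq_true_iff.1 c_10_17).2,
    (Bool.and_eq_true_iff.1 c_10_18).1, (Bool.and_eq_true_iff.1 c_10_18).2,
    (Bool.and_eq_true_iff.1 c_10_19).1, (Bool.and_eq_true_iff.1 c_10_19).2,
    (Bool.and_eq_true_iff.1 c_10_20).1, (Bool.and_eq_true_iff.1 c_10_20).2,
    (Bool.and_eq_true_iff.1 c_10_21).1, (Bool.and_eq_true_iff.1 c_10_21).2,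
    (Bool.and_eq_true_iff.1 c_10_22).1, (Bool.and_eq_true_iff.1 c_10_22).2,
    (Bool.and_eq_true_iff.1 c_10_23).1, (Bool.and_eq_true_iff.1 c_10_23).2,
    (Bool.and_eq_true_iff.1 c_10_24).1, (Bool.and_eq_true_iff.1 c_10_24).2,
    (Bool.and_eq_true_iff.1 c_10_25).1, (Bool.and_eq_true_iff.1 c_10_25).2,
    (Bool.and_eq_true_iff.1 c_10_26).1, (Bool.and_eq_true_iff.1 c_10_26).2,
    (Bool.and_eq_true_iff.1 c_10_27).1, (Bool.and_eq_true_iff.1 c_10_27).2,
    (Bool.and_eq_true_iff.1 c_10_28).1, (Bool.and_eq_true_iff.1 c_10_28).2,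
    (Bool.and_eq_true_iff.1 c_10_29).1, (Bool.and_eq_true_iff.1 c_10_29).2,
    (Bool.and_eq_true_iff.1 c_10_30).1, (Bool.and_eq_true_iff.1 c_10_30).2,
    (Bool.and_eq_true_iff.1 c_10_31).1, (Bool.and_eq_true_iff.1 c_10_31).2]

theorem c_11_0 : (chk grps 11 0 && chk grps 11 1) = true := by decide +kernel

theorem c_11_1 : (chk grps 11 2 && chk grps 11 3) = true := by decide +kernel

theorem c_11_2 : (chk grps 11 4 && chk grps 11 5) = true := by decide +kernel

theorem c_11_3 : (chk grps 11 6 && chk grps 11 7) = true := by decide +kernel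

theorem c_11_4 : (chk grps 11 8 && chk grps 11 9) = true := by decide +kernel

theorem c_11_5 : (chk grps 11 10 && chk grps 11 11) = true := by decide +kernel

theorem c_11_6 : (chk grps 11 12 && chk grps 11 13) = true := by decide +kernel

theorem c_11_7 : (chk grps 11 14 && chk grps 11 15) = true := by decide +kernel

theorem c_11_8 : (chk grps 11 16 && chk grps 11 17) = true := by decide +kernel

theorem c_11_9 : (chk grps 11 18 && chk grps 11 19) = true := by decide +kernel

theorem c_11_10 : (chk grps 11 20 && chk grps 11 21) = true := by decide +kernel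

theorem c_11_11 : (chk grps 11 22 && chk grps 11 23) = true := by decide +kernel

theorem c_11_12 : (chk grps 11 24 && chk grps 11 25) = true := by decide +kernel

theorem c_11_13 : (chk grps 11 26 && chk grps 11 27) = true := by decide +kernel

theorem c_11_14 : (chk grps 11 28 && chk grps 11 29) = true := by decide +kernel

theorem c_11_15 : (chk grps 11 30 && chk grps 11 31) = true := by decide +kernel

theorem c_11_16 : (chk grps 11 32 && chk grps 11 33) = true := by decide +kernel

theorem c_11_17 : (chk grps 11 34 && chk grps 11 35) = true := by decide +kernel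

theorem c_11_18 : (chk grps 11 36 && chk grps 11 37) = true := by decide +kernel

theorem c_11_19 : (chk grps 11 38 && chk grps 11 39) = true := by decide +kernel

theorem c_11_20 : (chk grps 11 40 && chk grps 11 41) = true := by decide +kernel

theorem c_11_21 : (chk grps 11 42 && chk grps 11 43) = true := by decide +kernel

theorem c_11_22 : (chk grps 11 44 && chk grps 11 45) = true := by decide +kernel

theorem c_11_23 : (chk grps 11 46 && chk grps 11 47) = true := by decide +kernel

theorem c_11_24 : (chk grps 11 48 && chk grps 11 49) = true := by decide +kernel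

theorem c_11_25 : (chk grps 11 50 && chk grps 11 51) = true := by decide +kernel

theorem c_11_26 : (chk grps 11 52 && chk grps 11 53) = true := by decide +kernel

theorem c_11_27 : (chk grps 11 54 && chk grps 11 55) = true := by decide +kernel

theorem c_11_28 : (chk grps 11 56 && chk grps 11 57) = true := by decide +kernel

theorem c_11_29 : (chk grps 11 58 && chk grps 11 59) = true := by decide +kernel

theorem c_11_30 : (chk grps 11 60 && chk grps 11 61) = true := by decide +kernel

theorem c_11_31 : (chk grps 11 62 && chk grps 11 63) = true := by decide +kernel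

theorem chkN_11 : ∀ D < 64, chk grps 11 D = true := by
  intro D hD
  interval_cases D
  exacts [(Bool.and_eq_true_iff.1 c_11_0).1, (Bool.and_eq_true_iff.1 c_11_0).2,
    (Bool.and_eq_true_iff.1 c_11_1).1, (Bool.and_eq_true_iff.1 c_11_1).2,
    (Bool.and_eq_true_iff.1 c_11_2).1, (Bool.and_eq_true_iff.1 c_11_2).2,
    (Bool.and_eq_true_iff.1 c_11_3).1, (Bool.and_eq_true_iff.1 c_11_3).2,
    (Bool.and_eq_true_iff.1 c_11_4).1, (Bool.and_eq_true_iff.1 c_11_4).2,
    (Bool.and_eq_true_iff.1 c_11_5).1, (Bool.and_eq_true_iff.1 c_11_5).2,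
    (Bool.and_eq_true_iff.1 c_11_6).1, (Bool.and_eq_true_iff.1 c_11_6).2,
    (Bool.and_eq_true_iff.1 c_11_7).1, (Bool.and_eq_true_iff.1 c_11_7).2,
    (Bool.and_eq_true_iff.1 c_11_8).1, (Bool.and_eq_true_iff.1 c_11_8).2,
    (Bool.and_eq_true_iff.1 c_11_9).1, (Bool.and_eq_true_iff.1 c_11_9).2,
    (Bool.and_eq_true_iff.1 c_11_10).1, (Bool.and_eq_true_iff.1 c_11_10).2,
    (Bool.and_eq_true_iff.1 c_11_11).1, (Bool.and_eq_true_iff.1 c_11_11).2,
    (Bool.and_eq_true_iff.1 c_11_12).1, (Bool.and_eq_true_iff.1 c_11_12).2,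
    (Bool.and_eq_true_iff.1 c_11_13).1, (Bool.and_eq_true_iff.1 c_11_13).2,
    (Bool.and_eq_true_iff.1 c_11_14).1, (Bool.and_eq_true_iff.1 c_11_14).2,
    (Bool.and_eq_true_iff.1 c_11_15).1, (Bool.and_eq_true_iff.1 c_11_15).2,
    (Bool.and_eq_true_iff.1 c_11_16).1, (Bool.and_eq_true_iff.1 c_11_16).2,
    (Bool.and_eq_true_iff.1 c_11_17).1, (Bool.and_eq_true_iff.1 c_11_17).2,
    (Bool.and_eq_true_iff.1 c_11_18).1, (Bool.and_eq_true_iff.1 c_11_18).2,
    (Bool.and_eq_true_iff.1 c_11_19).1, (Bool.and_eq_true_iff.1 c_11_19).2,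
    (Bool.and_eq_true_iff.1 c_11_20).1, (Bool.and_eq_true_iff.1 c_11_20).2,
    (Bool.and_eq_true_iff.1 c_11_21).1, (Bool.and_eq_true_iff.1 c_11_21).2,
    (Bool.and_eq_true_iff.1 c_11_22).1, (Bool.and_eq_true_iff.1 c_11_22).2,
    (Bool.and_eq_true_iff.1 c_11_23).1, (Bool.and_eq_true_iff.1 c_11_23).2,
    (Bool.and_eq_true_iff.1 c_11_24).1, (Bool.and_eq_true_iff.1 c_11_24).2,
    (Bool.and_eq_true_iff.1 c_11_25).1, (Bool.and_eq_true_iff.1 c_11_25).2,
    (Bool.and_eq_true_iff.1 c_11_26).1, (Bool.and_eq_true_iff.1 c_11_26).2,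
    (Bool.and_eq_true_iff.1 c_11_27).1, (Bool.and_eq_true_iff.1 c_11_27).2,
    (Bool.and_eq_true_iff.1 c_11_28).1, (Bool.and_eq_true_iff.1 c_11_28).2,
    (Bool.and_eq_true_iff.1 c_11_29).1, (Bool.and_eq_true_iff.1 c_11_29).2,
    (Bool.and_eq_true_iff.1 c_11_30).1, (Bool.and_eq_true_iff.1 c_11_30).2,
    (Bool.and_eq_true_iff.1 c_11_31).1, (Bool.and_eq_true_iff.1 c_11_31).2]

end Vale.Agent.P359
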